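import Vale.Agent.P167.H411.Inputs6
import Vale.Agent.P153.R2.UNIQ.Sub

/-!
# P167, END: the proof of `S_seq` from its inputs

`s_seq`: the input `SLE.S_seq` of the curve theorem `SLE.curveLimit`, from the inputs of
`Inputs6.lean`.
-/

set_option autoImplicit false
set_option linter.unusedVariables false

open MeasureTheory ProbabilityTheory Filter Topology Set Metric
open scoped NNReal ENNReal

namespace Vale.Agent.P167.H411

open Vale.Agent.P153.R2
open Vale.Agent.P153.R2.DET (Uni HC)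
open Vale.Agent.P153.R2.R1 (IsU)
open Vale.Agent.P153.R2.C1
open Vale.Agent.P153.R2.Final (dom circ toC IsUniformizer)
open Vale.Agent.P167.SLE (SeqHyp Cf law IsDrv6 mean_eq bq S_seq)
open Vale.Agent.P167.E6 Vale.Agent.P167.E2

/-! ### Preparations -/

theorem good_ev {Φ : (ℝ × ℝ) ≃ₜ (ℝ × ℝ)} {δ : ℕ → ℝ} {N k : ℕ → ℕ}
    {p : ∀ n, ZMod (N n) → ℤ × ℤ} {S : ℕ → Finset (ℤ × ℤ)} (hA : Approx Φ δ N k p S) :
    ∀ᶠ n in atTop, k n + 1 < N n := by
  have hne : toC (Φ (circ Real.pi)) ≠ toC (Φ (circ (2 * Real.pi))) := by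
    intro h
    have h1 : Φ (circ Real.pi) = Φ (circ (2 * Real.pi)) := by
      have h2 := congrArg Complex.re h
      have h3 := congrArg Complex.im h
      exact Prod.ext h2 h3
    have h4 := congrArg Prod.fst (Φ.injective h1)
    simp only [circ] at h4
    rw [Real.cos_pi, Real.cos_two_pi] at h4
    norm_num at h4
  have hd := dist_pos.2 hne
  filter_upwards [hA.2.2 _ (half_pos hd)] with n hn
  obtain ⟨s, hs, -, hsk, hsN, hsd⟩ := hn
  have hkN := (hA.1 n).2.2.1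
  by_contra hcon
  have hN : N n = k n + 1 := by omega
  have h1 := hsd (k n) hkN Real.pi ⟨hsk.le, by rw [← hN, hsN]; linarith [Real.pi_pos]⟩
  have h2 := hsd (k n) hkN (2 * Real.pi)
    ⟨by rw [hsk]; linarith [Real.pi_pos], by rw [← hN, hsN]⟩
  have h3 := dist_triangle_left (toC (Φ (circ Real.pi))) (toC (Φ (circ (2 * Real.pi))))
    ((δ n : ℂ) * pt (p n (k n : ZMod (N n))))
  linarith

/-- The hypothesis on the observable along a shifted sequence. -/
theorem close_shift {A B : Type*} {X : ℕ → Vale.Agent.P153.M1.Expl A B}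
    {O : (ℝ → ℝ) → ℝ → ℝ → ℝ} (h : Close X O) (n₀ : ℕ) : Close (fun n => X (n + n₀)) O := by
  intro T R hT hR
  obtain ⟨b₁, hb⟩ := h T R hT hR
  refine ⟨b₁, fun b hb₁ ε hε => ?_⟩
  obtain ⟨φ, hφ⟩ := hb b hb₁ ε hε
  exact ⟨fun n => φ (n + n₀), (tendsto_add_atTop_nat n₀).eventually hφ⟩

theorem xc_Qc {n : ℕ} (p : ZMod n → ℤ × ℤ) (k : ℕ) (δ : ℝ) (S : Finset (ℤ × ℤ))
    (a : Finset (Sym2 (ℤ × ℤ))) : (Qc p k δ S).xc a = Xc p k δ a := by
  have hc : Continuous fun t : unitInterval =>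
      (Qc p k δ S).X a ((Qc p k δ S).K a * t) := by
    change Continuous fun t : unitInterval => pl p k δ a ((nu p k a : ℝ) * t)
    exact (continuous_pl δ).comp (by fun_prop)
  unfold DC.xc
  rw [dif_pos hc]
  ext t
  change pl p k δ a ((nu p k a : ℝ) * t) = pl p k δ a (t * nu p k a)
  rw [mul_comm]

theorem bound_all {P : ℕ → ℝ → Prop} (hm : ∀ n a a', a ≤ a' → P n a → P n a')
    (h0 : ∀ n, ∃ a, P n a) (h1 : ∃ a, ∀ᶠ n in atTop, P n a) : ∃ a, ∀ n, P n a := by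
  obtain ⟨a₀, h1⟩ := h1
  obtain ⟨N, hN⟩ := eventually_atTop.1 h1
  choose a ha using h0
  refine ⟨|a₀| + ∑ i ∈ Finset.range N, |a i|, fun n => ?_⟩
  have hs : 0 ≤ ∑ i ∈ Finset.range N, |a i| := Finset.sum_nonneg fun i _ => abs_nonneg _
  rcases lt_or_ge n N with hn | hn
  · refine hm n (a n) _ ?_ (ha n)
    have h2 : |a n| ≤ ∑ i ∈ Finset.range N, |a i| :=
      Finset.single_le_sum (f := fun i => |a i|) (fun i _ => abs_nonneg _) (Finset.mem_range.2 hn)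
    have h3 := le_abs_self (a n)
    have h4 := abs_nonneg a₀
    linarith
  · refine hm n a₀ _ ?_ (hN n hn)
    have h3 := le_abs_self a₀
    linarith

/-- A uniformizer is bounded. -/
theorem uni_bdd {ψ : ℂ → ℂ} {b : ℂ} (hU : Uni ψ b) : ∃ M : ℝ, ∀ z ∈ HC, ‖ψ z‖ ≤ M := by
  have h2 := Metric.tendsto_nhds.1 hU.inf 1 one_pos
  rw [eventually_inf_principal] at h2
  obtain ⟨M, -, hM⟩ := (Metric.hasBasis_cobounded_compl_closedBall (0 : ℂ)).eventually_iff.1 h2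
  have hK : IsCompact (HC ∩ closedBall (0 : ℂ) M) :=
    (isCompact_closedBall _ _).inter_left (isClosed_le continuous_const Complex.continuous_im)
  obtain ⟨C, hC⟩ := hK.exists_bound_of_continuousOn (hU.cont.mono inter_subset_left)
  refine ⟨max C (‖b‖ + 1), fun z hz => ?_⟩
  by_cases h : z ∈ closedBall (0 : ℂ) M
  · exact (hC z ⟨hz, h⟩).trans (le_max_left _ _)
  · have h3 : dist (ψ z) b < 1 := hM h hz
    refine le_trans ?_ (le_max_right _ _)
    have h4 := norm_sub_norm_le (ψ z) b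
    rw [dist_eq_norm] at h3
    linarith

/-- The curves are bounded. -/
theorem DCs_bdd {A B : Type*} {Q : ℕ → DC A B} {ψ' : ℕ → ℂ → ℂ} {b' : ℕ → ℂ}
    {ε' : ℕ → ℝ} {ψ : ℂ → ℂ} {b : ℂ} (H : DCs Q ψ' b' ε' ψ b) :
    ∃ R : ℝ, ∀ n, ∀ a ∈ (Q n).C, ∀ t : unitInterval, ‖(Q n).xc a t‖ ≤ R := by
  refine bound_all (P := fun n R => ∀ a ∈ (Q n).C, ∀ t : unitInterval, ‖(Q n).xc a t‖ ≤ R)
    (fun n a a' haa h x hx t => (h x hx t).trans haa) ?_ ?_
  · intro n
    obtain ⟨M, hM⟩ := ((H.wf n).fin.image fun a => ‖(Q n).xc a‖).bddAbove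
    exact ⟨M, fun a ha t => ((Q n).xc a).norm_coe_le_norm t |>.trans
      (hM (mem_image_of_mem _ ha))⟩
  · obtain ⟨M, hM⟩ := uni_bdd H.uni
    refine ⟨max (M + 1) (‖b‖ + 1), ?_⟩
    filter_upwards [Metric.tendstoUniformlyOn_iff.1 H.unif 1 one_pos,
      Metric.tendsto_nhds.1 H.endp 1 one_pos] with n h1 h2 a ha t
    rw [DC.xc_apply (H.wf n) ha]
    have hK := (H.wf n).posR ha
    rcases t.2.2.lt_or_eq with ht | ht
    · have h3 : (Q n).K a * (t : ℝ) < (Q n).K a := by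
        have := mul_lt_mul_of_pos_left ht hK
        rwa [mul_one] at this
      have h4 : 0 ≤ (Q n).K a * (t : ℝ) := mul_nonneg hK.le t.2.1
      have h5 := (H.wf n).et_mem ha h4 h3
      rw [← (H.wf n).psi_et ha h4 h3]
      have h6 := h1 _ h5
      have h7 := hM _ h5
      rw [dist_comm, dist_eq_norm] at h6
      have h8 := norm_sub_norm_le (ψ' n ((Q n).et (ψ' n) a ((Q n).K a * (t : ℝ))))
        (ψ ((Q n).et (ψ' n) a ((Q n).K a * (t : ℝ))))
      exact le_trans (by linarith) (le_max_left _ _)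
    · rw [ht, mul_one, (H.wf n).last a ha]
      rw [dist_eq_norm] at h2
      have h8 := norm_sub_norm_le (b' n) b
      exact le_trans (by linarith) (le_max_right _ _)

theorem fjr_mono {D : Set ℂ} {b : ℂ} {X : C(unitInterval, ℂ)} {T T' ρ e r₁ : ℝ} (hT : T ≤ T')
    (h : S6.FJR D b X T ρ e r₁) : S6.FJR D b X T' ρ e r₁ := by
  obtain ⟨s, t, h1, h2, h3, h4⟩ := h
  exact ⟨s, t, h1, h2.trans_le hT, h3, h4⟩

/-! ### Along a family of curves -/

section

variable {B : Type*} {S : ℕ → Finset (ℤ × ℤ)} {Q : ℕ → DC (Finset (Sym2 (ℤ × ℤ))) B}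
  {ψn : ℕ → ℂ → ℂ} {bn : ℕ → ℂ} {ε : ℕ → ℝ} {ψ : ℂ → ℂ} {b : ℂ}

/-- **The hypotheses of the curve theorem**, with `nf` (no fjords) instead of `tip`. -/
theorem seqHyp' [MeasurableSpace C(ℝ≥0, ℝ)] [BorelSpace C(ℝ≥0, ℝ)]
    (hQ : ∀ n, (Q n).C = (((edges (S n)).powerset : Finset _) : Set _))
    (H : DCs Q ψn bn ε ψ b) {O : (ℝ → ℝ) → ℝ → ℝ → ℝ} {c₀ c₁ c₂ : ℝ} (hE : Expn O 6 c₀ c₁ c₂)
    (hC : Close (fun n => (Q n).expl (ψn n)) O) {R : ℝ}
    (bdd : ∀ (n : ℕ) (a : Cf (S n)) (t : unitInterval), ‖(Q n).xc a.1 t‖ ≤ R)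
    (cross : ∀ (y : ℂ) (r : ℝ), 0 < r → ∀ q : ℝ≥0∞, 0 < q → ∃ k : ℕ, ∀ᶠ n in atTop,
      law (S n) {a : Cf (S n) | Cross ((Q n).xc a.1) y r (3 * r) k} ≤ q)
    (fin : ∀ r : ℝ, 0 < r → ∀ q : ℝ≥0∞, 0 < q → ∃ r' : ℝ, 0 < r' ∧ ∀ᶠ n in atTop,
      law (S n) {a : Cf (S n) | ∃ s t : unitInterval, s ≤ t ∧ dist ((Q n).xc a.1 s) b < r' ∧
        r < dist ((Q n).xc a.1 t) b} ≤ q)
    (nf : ∀ e : ℝ, 0 < e → ∀ r₁ : ℝ, 0 < r₁ → ∀ q : ℝ≥0∞, 0 < q → ∃ ρ : ℝ, 0 < ρ ∧
      ∀ᶠ n in atTop, law (S n) {a : Cf (S n) | S6.FJR (ψn n '' {z | 0 < z.im}) (bn n)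
        ((Q n).xc a.1) ((Q n).T1 a.1) ρ e r₁} ≤ q) :
    ∃ lam : Measure C(ℝ≥0, ℝ), IsDrv6 lam ∧
      SeqHyp ψn ψ bn b (fun n => 2 * ε n) (fun n => Cf (S n)) (fun n => law (S n))
        (fun n a => (Q n).xc a.1) (fun n a => (Q n).xs (ψn n) a.1)
        (fun n a => (Q n).cs (ψn n) a.1) (fun n a => (Q n).wf (ψn n) a.1)
        (fun n a => (Q n).T0 a.1) (fun n a => (Q n).T1 a.1) lam R := by
  obtain ⟨lam, hlam, hB, hlim⟩ := drv_weak (by norm_num) hE H.asymB hC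
  have hmem : ∀ n (a : Cf (S n)), a.1 ∈ (Q n).C := fun n a => by
    rw [hQ n]
    exact a.2
  have hdrv : ∀ f : C(ℝ≥0, ℝ) → ℝ, Continuous f → (∃ M, ∀ y, |f y| ≤ M) →
      Tendsto (fun n => ∫ a : Cf (S n), f ((Q n).wf (ψn n) a.1) ∂(law (S n))) atTop
        (𝓝 (∫ y, f y ∂lam)) := by
    intro f hf hM
    refine (hlim f hf hM).congr fun n => ?_
    change Ex (Q n).C (fun h => f ((Q n).wf (ψn n) h)) = _
    rw [hQ n, ex_law]
  have hdisc : ∀ (n : ℕ) (a : Cf (S n)), UNIQ.Disc (ψn n) (bn n) ((Q n).xc a.1)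
      ((Q n).xs (ψn n) a.1) ((Q n).cs (ψn n) a.1) ((Q n).wf (ψn n) a.1) ((Q n).T0 a.1)
      ((Q n).T1 a.1) (2 * ε n) := fun n a => DC.disc (H.wf n) (H.unin n) (hmem n a)
  have htight : ∀ q : ℝ≥0∞, 0 < q → ∃ K : Set C(ℝ≥0, ℝ), IsCompact K ∧
      ∀ᶠ n in atTop, law (S n) {a : Cf (S n) | (Q n).wf (ψn n) a.1 ∉ K} ≤ q := by
    intro q' hq'
    have h1 := SLE.tight_of_lim (fun n => (law (S n)).map fun a : Cf (S n) =>
      (Q n).wf (ψn n) a.1) (fun n => Measure.isProbabilityMeasure_map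
        (Measurable.of_discrete (f := fun a : Cf (S n) =>
          (Q n).wf (ψn n) a.1)).aemeasurable) lam hlam fun f hf hM => by
      refine (hdrv f hf hM).congr fun n => ?_
      exact (integral_map (Measurable.of_discrete (f := fun a : Cf (S n) =>
          (Q n).wf (ψn n) a.1)).aemeasurable hf.aestronglyMeasurable).symm
    obtain ⟨K, hK, hK'⟩ := isTightMeasureSet_iff_exists_isCompact_measure_compl_le.1 h1 q' hq'
    refine ⟨K, hK, Eventually.of_forall fun n => ?_⟩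
    have h2 := hK' _ ⟨n, rfl⟩
    rwa [Measure.map_apply Measurable.of_discrete hK.isClosed.measurableSet.compl] at h2
  refine ⟨lam, hB, ?_⟩
  exact
    { prob := fun n => inferInstance
      problam := hlam
      uni := H.uni
      unif := H.unif
      endp := H.endp
      eps := by simpa using H.eps.const_mul 2
      disc := hdisc
      drv := hdrv
      bdd := bdd
      cross := cross
      fin := fin
      tip := S6.tip' (fun n => law (S n)) ψn ψ bn b H.uni H.unif H.endp H.unin H.diff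
        (fun n (a : Cf (S n)) => (Q n).xc a.1) (fun n a => (Q n).xs (ψn n) a.1)
        (fun n a => (Q n).cs (ψn n) a.1) (fun n a => (Q n).wf (ψn n) a.1)
        (fun n a => (Q n).T0 a.1) (fun n a => (Q n).T1 a.1) (fun n => 2 * ε n) hdisc htight fin
        nf }

end

section

variable {Φ : (ℝ × ℝ) ≃ₜ (ℝ × ℝ)} {ψ : ℂ → ℂ} {δ : ℕ → ℝ} {N k : ℕ → ℕ}
  {p : ∀ n, ZMod (N n) → ℤ × ℤ} {S : ℕ → Finset (ℤ × ℤ)} {ψn : ℕ → ℂ → ℂ}

theorem Set6.endp (H : Set6 Φ ψ δ N k p S ψn) :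
    Tendsto (fun n => bM (p n) (k n) (δ n)) atTop (𝓝 (bq Φ)) := by
  have := UNIQ.neBot_inf
  rw [Metric.tendsto_nhds]
  intro ε hε
  filter_upwards [H.conv (ε / 2) (by positivity), good_ev H.appr] with n h hg
  have h1 : Tendsto (fun z => dist (ψn n z) (ψ z))
      (Bornology.cobounded ℂ ⊓ 𝓟 {z | 0 ≤ z.im})
      (𝓝 (dist (bM (p n) (k n) (δ n)) (bq Φ))) := (H.isU n hg).infty.dist H.unif.2.2.2.2.2
  have h2 : dist (bM (p n) (k n) (δ n)) (bq Φ) ≤ ε / 2 := by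
    refine le_of_tendsto h1 ?_
    filter_upwards [mem_inf_of_right (mem_principal_self _)] with z hz
    exact (h z hz).le
  linarith

/-- The families of corner curves satisfy the hypotheses of the bridge, from an index on. -/
theorem Set6.dcs (huinj : UNIQ.I_uinj) (H : Set6 Φ ψ δ N k p S ψn) {n₀ : ℕ}
    (hn₀ : ∀ n, n₀ ≤ n → k n + 1 < N n) :
    DCs (fun n => Qc (p (n + n₀)) (k (n + n₀)) (δ (n + n₀)) (S (n + n₀)))
      (fun n => ψn (n + n₀)) (fun n => bM (p (n + n₀)) (k (n + n₀)) (δ (n + n₀)))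
      (fun n => δ (n + n₀)) ψ (bq Φ) := by
  have hU : Uni ψ (bq Φ) := SLE.uni_of_uniformizer huinj H.unif
  have hg : ∀ n, k (n + n₀) + 1 < N (n + n₀) := fun n => hn₀ _ (Nat.le_add_left _ _)
  have hs := tendsto_add_atTop_nat n₀
  constructor
  · intro n
    obtain ⟨h1, -, -, h4, h5⟩ := H.appr.1 (n + n₀)
    exact Qc_wf h4 h5 (hg n) h1 (H.isU _ (hg n))
  · exact fun n => H.uni _ (hg n)
  · exact fun n => (H.isU _ (hg n)).diff
  · exact hU
  · rw [Metric.tendstoUniformlyOn_iff]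
    intro e he
    filter_upwards [hs.eventually (H.conv e he)] with n h z hz
    rw [dist_comm]
    exact h z hz
  · exact H.endp.comp hs
  · exact H.appr.2.1.comp hs

end

/-! ### The theorem -/

theorem reparam_refl (c : C(unitInterval, ℂ)) : reparam c (OrderIso.refl unitInterval) = c := by
  ext t
  rfl

/-- **The input of the curve theorem.** -/
theorem s_seq (huinj : UNIQ.I_uinj) (hrado : I_rado6) {O : (ℝ → ℝ) → ℝ → ℝ → ℝ} {c₀ c₁ c₂ : ℝ}
    (hE : Expn O 6 c₀ c₁ c₂) (hclose : I_close6 O) (hcross : I_cross6) (hfin : I_fin6)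
    (hnf : I_nf6) : S_seq := by
  intro _ _ Φ ψ hψ δ N k p S hA
  obtain ⟨ψn, H⟩ := hrado Φ ψ hψ δ N k p S hA
  obtain ⟨n₀, hn₀⟩ := eventually_atTop.1 (good_ev H.appr)
  have hD := H.dcs huinj hn₀
  obtain ⟨R, hR⟩ := DCs_bdd hD
  have hs := tendsto_add_atTop_nat n₀
  have hcl := close_shift (hclose Φ ψ δ N k p S ψn H) n₀
  obtain ⟨lam, hlam, hseq⟩ := seqHyp' (R := R) (S := fun n => S (n + n₀)) (fun n => rfl) hD hE hcl
    (fun n a t => hR n a.1 a.2 t)
    (by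
      intro y r hr q hq
      obtain ⟨m, hm⟩ := hcross Φ δ N k p S hA y r hr q hq
      refine ⟨m, ?_⟩
      filter_upwards [hs.eventually hm] with n h
      simp only [xc_Qc]
      exact h)
    (by
      intro r hr q hq
      obtain ⟨r', hr', hm⟩ := hfin Φ δ N k p S hA r hr q hq
      refine ⟨r', hr', ?_⟩
      filter_upwards [hs.eventually hm] with n h
      simp only [xc_Qc]
      exact h)
    (by
      intro e he r hr q hq
      obtain ⟨ρ, hρ, hm⟩ := hnf Φ δ N k p S hA e he r hr q hq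
      refine ⟨ρ, hρ, ?_⟩
      filter_upwards [hs.eventually hm] with n h
      refine (measure_mono ?_).trans h
      intro a ha
      have hg := hn₀ (n + n₀) (Nat.le_add_left _ _)
      have ha' := ha
      simp only [mem_ofPred_eq, xc_Qc] at ha'
      rw [(H.isU _ hg).img] at ha'
      refine fjr_mono ?_ ha'
      have hpos : (0 : ℝ) < (nu (p (n + n₀)) (k (n + n₀)) a.1 : ℝ) := by
        exact_mod_cast Nat.succ_pos _
      change ((nu (p (n + n₀)) (k (n + n₀)) a.1 : ℝ) - 1 / 2) /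
        (nu (p (n + n₀)) (k (n + n₀)) a.1 : ℝ) ≤ 1
      rw [div_le_one hpos]
      linarith)
  refine ⟨n₀, _, _, _, _, _, _, _, _, _, lam, R, fun n => 2 * δ (n + n₀), hlam, hseq, ?_, ?_⟩
  · simpa using (hA.2.1.comp hs).const_mul 2
  · intro n a c hc
    obtain ⟨h1, h2, h3, h4, h5⟩ := hA.1 (n + n₀)
    have ha : a.1 ⊆ edges (S (n + n₀)) := Finset.mem_powerset.1 a.2
    refine ⟨OrderIso.refl _, ?_⟩
    rw [reparam_refl, isInterface_unique h4 h5 h3 ha hc, xc_Qc]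
    exact dist_crv_Xc h4 h5 h2 h3 ha h1.le

end Vale.Agent.P167.H411
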