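import Vale.Agent.P167.H411.Flow
import Mathlib.Analysis.SpecialFunctions.Log.Deriv
import Mathlib.Analysis.SpecialFunctions.Exponential

/-!
# P167, block DRV6: expansion of the boundary observable at infinity
-/

set_option linter.unusedSectionVars false
set_option linter.unusedVariables false

namespace Vale.Agent.P167.H411

open Set Filter Topology MeasureTheory Vale.Agent.P164 Vale.Agent.P153.BESS

/-- The boundary observable `b^{1/3} (g_t'(b) / (g_t(b) - W_t))^{1/3}` in terms of a solution. -/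
noncomputable def obsY (W y : ℝ → ℝ) (b t : ℝ) : ℝ :=
  Real.exp ((ldv W y t - Real.log ((y t - W t) / b)) / 3)

open Classical in
/-- The boundary observable `b^{1/3} (g_t'(b) / (g_t(b) - W_t))^{1/3}` of the chain driven by `W`. -/
noncomputable def obsF (W : ℝ → ℝ) (b t : ℝ) : ℝ :=
  if h : ∃ y, RSol W b t y then obsY W h.choose b t else 1

theorem ldv_congr {W y y' : ℝ → ℝ} {t : ℝ} (ht : 0 ≤ t) (h : EqOn y y' (Icc 0 t)) :
    ldv W y t = ldv W y' t := by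
  unfold ldv
  congr 1
  refine intervalIntegral.integral_congr fun s hs => ?_
  rw [uIcc_of_le ht] at hs
  simp only [h hs]

theorem obsF_eq {W y : ℝ → ℝ} {b t : ℝ} (ht : 0 ≤ t) (hW : ContinuousOn W (Icc 0 t))
    (hy : RSol W b t y) : obsF W b t = obsY W y b t := by
  have h : ∃ y, RSol W b t y := ⟨y, hy⟩
  have he : EqOn h.choose y (Icc 0 t) := rsol_unique ht hW h.choose_spec hy
  rw [obsF, dif_pos h, obsY, obsY, ldv_congr ht he, he ⟨ht, le_rfl⟩]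

theorem obsF_pos (W : ℝ → ℝ) (b t : ℝ) : 0 < obsF W b t := by
  unfold obsF
  split_ifs
  · exact Real.exp_pos _
  · exact one_pos

/-- The observable as a power. -/
theorem obsY_eq_rpow {W y : ℝ → ℝ} {b t : ℝ} (h : 0 < (y t - W t) / b) :
    obsY W y b t = (b * Real.exp (ldv W y t) / (y t - W t)) ^ (1 / 3 : ℝ) := by
  have hb : b ≠ 0 := by rintro rfl; simp at h
  have hy : y t - W t ≠ 0 := by
    intro h0
    rw [h0, zero_div] at h
    exact lt_irrefl _ h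
  have e1 : b * Real.exp (ldv W y t) / (y t - W t) =
      Real.exp (ldv W y t - Real.log ((y t - W t) / b)) := by
    rw [Real.exp_sub, Real.exp_log h]
    field_simp
  rw [e1, ← Real.exp_mul, obsY]
  congr 1
  ring

/-- The main terms of the expansion. -/
noncomputable def mainB (b w t : ℝ) : ℝ := w / (3 * b) + 2 / 9 * (w ^ 2 - 6 * t) / b ^ 2

theorem log_aux {v Av : ℝ} (hv : |v| ≤ Av) (hA : Av ≤ 1 / 2) :
    |Real.log (1 + v) - (v - v ^ 2 / 2)| ≤ 2 * Av ^ 3 := by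
  have h1 := Real.abs_log_sub_add_sum_range_le (x := -v) (by rw [abs_neg]; linarith) 2
  simp only [Finset.sum_range_succ, Finset.sum_range_zero, abs_neg, sub_neg_eq_add] at h1
  have e : (0 + (-v) ^ (0 + 1) / (((0 : ℕ) : ℝ) + 1) + (-v) ^ (1 + 1) / (((1 : ℕ) : ℝ) + 1) +
      Real.log (1 + v)) = Real.log (1 + v) - (v - v ^ 2 / 2) := by
    push_cast; ring
  rw [e] at h1
  refine h1.trans ?_
  have h4 : |v| ^ 3 ≤ Av ^ 3 := pow_le_pow_left₀ (abs_nonneg v) hv 3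
  have h5 : 0 ≤ |v| ^ 3 := by positivity
  rw [div_le_iff₀ (by linarith)]
  have h6 : |v| ^ (2 + 1) = |v| ^ 3 := rfl
  rw [h6]
  have h7 : Av ^ 3 * 1 ≤ Av ^ 3 * (2 * (1 - |v|)) :=
    mul_le_mul_of_nonneg_left (by linarith) (h5.trans h4)
  linarith

theorem exp_aux {x B : ℝ} (hx : |x| ≤ B) (hB : B ≤ 1) :
    |Real.exp x - (1 + x + x ^ 2 / 2)| ≤ B ^ 3 := by
  have h9 := Real.exp_bound (hx.trans hB) (n := 3) (by norm_num)
  have e : ∑ m ∈ Finset.range 3, x ^ m / (m.factorial : ℝ) = 1 + x + x ^ 2 / 2 := by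
    simp [Finset.sum_range_succ, Nat.factorial]
  rw [e] at h9
  refine h9.trans ?_
  have h11 : |x| ^ 3 ≤ B ^ 3 := pow_le_pow_left₀ (abs_nonneg _) hx 3
  have h12 : (((3 : ℕ).succ : ℝ) / (((3 : ℕ).factorial : ℝ) * ((3 : ℕ) : ℝ))) ≤ 1 := by
    simp [Nat.factorial]
    norm_num
  calc |x| ^ 3 * _ ≤ B ^ 3 * 1 :=
        mul_le_mul h11 h12 (by positivity) ((pow_nonneg (abs_nonneg x) 3).trans h11)
    _ = B ^ 3 := mul_one _

theorem sq_sub_aux {x y P Q r s : ℝ} (h1 : |x - y| ≤ P) (h2 : |x| ≤ Q) (h3 : |y| ≤ Q) :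
    |x ^ 2 - y ^ 2| ≤ P * (2 * Q) := by
  have e : x ^ 2 - y ^ 2 = (x - y) * (x + y) := by ring
  rw [e, abs_mul]
  have h4 : |x + y| ≤ 2 * Q := (abs_add_le _ _).trans (by linarith)
  exact mul_le_mul h1 h4 (abs_nonneg _) ((abs_nonneg _).trans h1)

/-- the logarithm of the observable -/
theorem expand_log {T R C1 C2 A q w t e1 e2 v : ℝ} (hT : 0 ≤ T) (hR : 0 ≤ R) (hq1 : |q| ≤ 1)
    (hC1 : 0 ≤ C1) (hC2 : 0 ≤ C2) (hw : |w| ≤ R) (ht : 0 ≤ t) (htT : t ≤ T)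
    (he1 : |e1| ≤ C1 * |q| ^ 2) (hv : v = -w * q + 2 * t * q ^ 2 + e1 * q)
    (he2 : |e2| ≤ C2 * |q| ^ 3) (hA : A = R + 2 * T + C1) (hAq : A * |q| ≤ 1 / 2) :
    |(-2 * t * q ^ 2 + e2) - Real.log (1 + v) - (w * q + (w ^ 2 / 2 - 4 * t) * q ^ 2)| ≤
      (C2 + C1 + A * (2 * T + C1) + 2 * A ^ 3) * |q| ^ 3 := by
  have hq0 : 0 ≤ |q| := abs_nonneg q
  have hq2 : q ^ 2 = |q| ^ 2 := (sq_abs q).symm
  have hq21 : |q| ^ 2 ≤ |q| := by
    calc |q| ^ 2 = |q| * |q| := sq _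
      _ ≤ |q| * 1 := mul_le_mul_of_nonneg_left hq1 hq0
      _ = |q| := mul_one _
  have hA0 : 0 ≤ A := by rw [hA]; positivity
  have h2t : |2 * t * q ^ 2| ≤ 2 * T * |q| ^ 2 := by
    rw [abs_mul, abs_mul, abs_two, abs_of_nonneg ht, abs_of_nonneg (sq_nonneg q), hq2]
    gcongr
  have he1q : |e1 * q| ≤ C1 * |q| ^ 2 * |q| := by
    rw [abs_mul]
    exact mul_le_mul_of_nonneg_right he1 hq0
  have he1q2 : |e1 * q| ≤ C1 * |q| ^ 2 := by
    refine he1q.trans ?_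
    calc C1 * |q| ^ 2 * |q| ≤ C1 * |q| ^ 2 * 1 := mul_le_mul_of_nonneg_left hq1 (by positivity)
      _ = C1 * |q| ^ 2 := mul_one _
  have hsum : |v + w * q| ≤ (2 * T + C1) * |q| ^ 2 := by
    have e' : v + w * q = 2 * t * q ^ 2 + e1 * q := by rw [hv]; ring
    rw [e', add_mul]
    exact (abs_add_le _ _).trans (add_le_add h2t he1q2)
  have hwq : |w * q| ≤ R * |q| := by rw [abs_mul]; gcongr
  have hvA : |v| ≤ A * |q| := by
    have e : v = (v + w * q) - w * q := by ring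
    rw [e]
    refine (abs_sub _ _).trans ?_
    have : (2 * T + C1) * |q| ^ 2 ≤ (2 * T + C1) * |q| :=
      mul_le_mul_of_nonneg_left hq21 (by positivity)
    rw [hA]
    linarith
  have h3 := log_aux hvA hAq
  have hwA : |w * q| ≤ A * |q| := hwq.trans (mul_le_mul_of_nonneg_right (by rw [hA]; linarith) hq0)
  have h4 : |v ^ 2 - (w * q) ^ 2| ≤ (2 * T + C1) * |q| ^ 2 * (2 * (A * |q|)) := by
    have h5 := sq_sub_aux (x := v) (y := -(w * q)) (P := (2 * T + C1) * |q| ^ 2) (Q := A * |q|)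
      (r := 0) (s := 0) (by rw [sub_neg_eq_add]; exact hsum) hvA (by rw [abs_neg]; exact hwA)
    rwa [neg_sq] at h5
  have e : (-2 * t * q ^ 2 + e2) - Real.log (1 + v) - (w * q + (w ^ 2 / 2 - 4 * t) * q ^ 2) =
      e2 - e1 * q + (v ^ 2 - (w * q) ^ 2) / 2 - (Real.log (1 + v) - (v - v ^ 2 / 2)) := by
    rw [hv]; ring
  rw [e]
  have b1 := abs_sub (e2 - e1 * q + (v ^ 2 - (w * q) ^ 2) / 2)
    (Real.log (1 + v) - (v - v ^ 2 / 2))
  have b2 := abs_add_le (e2 - e1 * q) ((v ^ 2 - (w * q) ^ 2) / 2)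
  have b3 := abs_sub e2 (e1 * q)
  have b4 : |(v ^ 2 - (w * q) ^ 2) / 2| ≤ A * (2 * T + C1) * |q| ^ 3 := by
    rw [abs_div, abs_two]
    calc |v ^ 2 - (w * q) ^ 2| / 2 ≤ ((2 * T + C1) * |q| ^ 2 * (2 * (A * |q|))) / 2 := by gcongr
      _ = A * (2 * T + C1) * |q| ^ 3 := by ring
  have e2' : C1 * |q| ^ 2 * |q| = C1 * |q| ^ 3 := by ring
  have e3' : 2 * (A * |q|) ^ 3 = 2 * A ^ 3 * |q| ^ 3 := by ring
  rw [e2'] at he1q
  rw [e3'] at h3
  calc _ ≤ C2 * |q| ^ 3 + C1 * |q| ^ 3 + A * (2 * T + C1) * |q| ^ 3 + 2 * A ^ 3 * |q| ^ 3 := by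
        linarith
    _ = _ := by ring

theorem expand_exp {T R C5 B q w t L : ℝ} (hT : 0 ≤ T) (hR : 0 ≤ R) (hq1 : |q| ≤ 1)
    (hC5 : 0 ≤ C5) (hw : |w| ≤ R) (ht : 0 ≤ t) (htT : t ≤ T)
    (hL : |L - (w * q + (w ^ 2 / 2 - 4 * t) * q ^ 2)| ≤ C5 * |q| ^ 3)
    (hB : B = R + R ^ 2 / 2 + 4 * T + C5) (hBq : B * |q| ≤ 1) :
    |Real.exp (L / 3) - 1 - (w * q / 3 + 2 / 9 * (w ^ 2 - 6 * t) * q ^ 2)| ≤
      (C5 + B ^ 2 + B ^ 3) * |q| ^ 3 := by
  have hq0 : 0 ≤ |q| := abs_nonneg q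
  have hq2 : q ^ 2 = |q| ^ 2 := (sq_abs q).symm
  have hq21 : |q| ^ 2 ≤ |q| := by
    calc |q| ^ 2 = |q| * |q| := sq _
      _ ≤ |q| * 1 := mul_le_mul_of_nonneg_left hq1 hq0
      _ = |q| := mul_one _
  have hq32 : |q| ^ 3 ≤ |q| ^ 2 := by
    calc |q| ^ 3 = |q| ^ 2 * |q| := pow_succ _ _
      _ ≤ |q| ^ 2 * 1 := mul_le_mul_of_nonneg_left hq1 (by positivity)
      _ = |q| ^ 2 := mul_one _
  have hB0 : 0 ≤ B := by rw [hB]; positivity
  have hw2 : w ^ 2 ≤ R ^ 2 := by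
    rw [← sq_abs w]; exact pow_le_pow_left₀ (abs_nonneg _) hw 2
  have hmid : |(w ^ 2 / 2 - 4 * t)| ≤ R ^ 2 / 2 + 4 * T := by
    have := sq_nonneg w
    rw [abs_le]; constructor <;> linarith
  have h6 : |L - w * q| ≤ (R ^ 2 / 2 + 4 * T + C5) * |q| ^ 2 := by
    have e : L - w * q = (w ^ 2 / 2 - 4 * t) * q ^ 2 +
      (L - (w * q + (w ^ 2 / 2 - 4 * t) * q ^ 2)) := by ring
    rw [e]
    refine (abs_add_le _ _).trans ?_
    rw [abs_mul, abs_of_nonneg (sq_nonneg q), hq2]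
    rw [hq2] at hL
    have h7 : |(w ^ 2 / 2 - 4 * t)| * |q| ^ 2 ≤ (R ^ 2 / 2 + 4 * T) * |q| ^ 2 := by gcongr
    have h8 : C5 * |q| ^ 3 ≤ C5 * |q| ^ 2 := by gcongr
    linarith
  have hwq : |w * q| ≤ R * |q| := by rw [abs_mul]; gcongr
  have hR2 : 0 ≤ R ^ 2 := sq_nonneg R
  have hwB : |w * q| ≤ B * |q| :=
    hwq.trans (mul_le_mul_of_nonneg_right (by rw [hB]; linarith) hq0)
  have hLB : |L| ≤ B * |q| := by
    have e : L = w * q + (L - w * q) := by ring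
    have h8 : (R ^ 2 / 2 + 4 * T + C5) * |q| ^ 2 ≤ (R ^ 2 / 2 + 4 * T + C5) * |q| :=
      mul_le_mul_of_nonneg_left hq21 (by positivity)
    have := abs_add_le (w * q) (L - w * q)
    rw [← e] at this
    rw [hB]
    linarith
  have h6B : |L - w * q| ≤ B * |q| ^ 2 :=
    h6.trans (mul_le_mul_of_nonneg_right (by rw [hB]; linarith) (by positivity))
  have h7 := sq_sub_aux (r := 0) (s := 0) h6B hLB hwB
  have hx : |L / 3| ≤ B * |q| := by
    rw [abs_div]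
    have h3 : |(3 : ℝ)| = 3 := by norm_num
    have h0 : 0 ≤ B * |q| := by positivity
    rw [h3]
    linarith
  have h8 := exp_aux hx hBq
  have efin : Real.exp (L / 3) - 1 - (w * q / 3 + 2 / 9 * (w ^ 2 - 6 * t) * q ^ 2) =
      (L - (w * q + (w ^ 2 / 2 - 4 * t) * q ^ 2)) / 3 + (L ^ 2 - (w * q) ^ 2) / 18 +
        (Real.exp (L / 3) - (1 + L / 3 + (L / 3) ^ 2 / 2)) := by ring
  rw [efin]
  have c1 := abs_add_three ((L - (w * q + (w ^ 2 / 2 - 4 * t) * q ^ 2)) / 3)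
    ((L ^ 2 - (w * q) ^ 2) / 18) (Real.exp (L / 3) - (1 + L / 3 + (L / 3) ^ 2 / 2))
  have c2 : |(L - (w * q + (w ^ 2 / 2 - 4 * t) * q ^ 2)) / 3| ≤ C5 * |q| ^ 3 := by
    have h3 : |(3 : ℝ)| = 3 := by norm_num
    have h0 : 0 ≤ C5 * |q| ^ 3 := by positivity
    rw [abs_div, h3]; linarith
  have c3 : |(L ^ 2 - (w * q) ^ 2) / 18| ≤ B ^ 2 * |q| ^ 3 := by
    have h3 : |(18 : ℝ)| = 18 := by norm_num
    have e : B * |q| ^ 2 * (2 * (B * |q|)) = 2 * (B ^ 2 * |q| ^ 3) := by ring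
    have h0 : 0 ≤ B ^ 2 * |q| ^ 3 := by positivity
    rw [e] at h7
    rw [abs_div, h3]; linarith
  have e3 : (B * |q|) ^ 3 = B ^ 3 * |q| ^ 3 := by ring
  rw [e3] at h8
  calc _ ≤ C5 * |q| ^ 3 + B ^ 2 * |q| ^ 3 + B ^ 3 * |q| ^ 3 := by linarith
    _ = _ := by ring

/-- **Expansion of the boundary observable.** -/
theorem obsF_expansion {T R : ℝ} (hT : 0 ≤ T) (hR : 0 ≤ R) : ∃ C b₀ : ℝ, 0 ≤ C ∧ 0 < b₀ ∧
    ∀ (W : ℝ → ℝ) (b t : ℝ), 0 ≤ t → t ≤ T → ContinuousOn W (Icc 0 t) →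
      (∀ s ∈ Icc 0 t, |W s| ≤ R) → b₀ ≤ |b| →
      (∃ y, RSol W b t y) ∧ |obsF W b t - 1 - mainB b (W t) t| ≤ C / |b| ^ 3 := by
  obtain ⟨C1, hC1⟩ : ∃ C1, C1 = 4 * T * (4 * T + R) := ⟨_, rfl⟩
  obtain ⟨C2, hC2⟩ : ∃ C2, C2 = 20 * (4 * T + R) * T := ⟨_, rfl⟩
  obtain ⟨A, hA⟩ : ∃ A, A = R + 2 * T + C1 := ⟨_, rfl⟩
  obtain ⟨C5, hC5⟩ : ∃ C5, C5 = C2 + C1 + A * (2 * T + C1) + 2 * A ^ 3 := ⟨_, rfl⟩
  obtain ⟨B, hB⟩ : ∃ B, B = R + R ^ 2 / 2 + 4 * T + C5 := ⟨_, rfl⟩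
  have hC10 : 0 ≤ C1 := by rw [hC1]; positivity
  have hC20 : 0 ≤ C2 := by rw [hC2]; positivity
  have hA0 : 0 ≤ A := by rw [hA]; positivity
  have hC50 : 0 ≤ C5 := by rw [hC5]; positivity
  have hB0 : 0 ≤ B := by rw [hB]; positivity
  refine ⟨C5 + B ^ 2 + B ^ 3, 1 + 4 * R + 16 * T + 2 * A + B, by positivity, by positivity, ?_⟩
  intro W b t ht htT hW hWR hb
  have hb1 : 1 ≤ |b| := by linarith
  have hb0 : 0 < |b| := by linarith
  have hbne : b ≠ 0 := abs_pos.1 hb0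
  have h1 : 4 * R ≤ |b| := by linarith
  have h2 : 16 * t ≤ b ^ 2 := by
    rw [← sq_abs, sq]
    have h3 : |b| * 1 ≤ |b| * |b| := mul_le_mul_of_nonneg_left hb1 hb0.le
    linarith
  obtain ⟨y, hy⟩ := exists_rsol ht hW hWR hbne h1 h2
  refine ⟨⟨y, hy⟩, ?_⟩
  rw [obsF_eq ht hW hy, obsY]
  have hq : |b⁻¹| = |b|⁻¹ := abs_inv b
  have hq1 : |b⁻¹| ≤ 1 := by rw [hq]; exact inv_le_one_of_one_le₀ hb1
  have hsec := RSol.second ht hR hW hWR hbne h1 h2 hy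
  have hldv := RSol.ldv_bound ht hR hW hWR hbne h1 h2 hy
  have hfr : 4 * t / |b| ≤ 4 * T := by
    rw [div_le_iff₀ hb0]
    have h3 : T * 1 ≤ T * |b| := mul_le_mul_of_nonneg_left hb1 hT
    linarith
  have hfr0 : 0 ≤ 4 * t / |b| := by positivity
  have he1 : |y t - b - 2 * t / b| ≤ C1 * |b⁻¹| ^ 2 := by
    refine hsec.trans ?_
    rw [hq, inv_pow, div_eq_mul_inv]
    apply mul_le_mul_of_nonneg_right _ (by positivity)
    rw [hC1]
    exact mul_le_mul (by linarith) (by linarith) (by positivity) (by positivity)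
  have he2 : |ldv W y t + 2 * t / b ^ 2| ≤ C2 * |b⁻¹| ^ 3 := by
    refine hldv.trans ?_
    rw [hq, inv_pow, div_eq_mul_inv]
    apply mul_le_mul_of_nonneg_right _ (by positivity)
    rw [hC2]
    exact mul_le_mul (by linarith) htT ht (by positivity)
  have hAq : A * |b⁻¹| ≤ 1 / 2 := by
    rw [hq, ← div_eq_mul_inv, div_le_iff₀ hb0]
    linarith
  have hBq : B * |b⁻¹| ≤ 1 := by
    rw [hq, ← div_eq_mul_inv, div_le_iff₀ hb0]
    linarith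
  have key := expand_log (v := (y t - W t) / b - 1) hT hR hq1 hC10 hC20
    (hWR t ⟨ht, le_rfl⟩) ht htT he1 (by field_simp; ring) he2 hA hAq
  rw [← hC5] at key
  have e1 : (-2 * t * b⁻¹ ^ 2 + (ldv W y t + 2 * t / b ^ 2)) = ldv W y t := by
    field_simp
    ring
  have e2 : 1 + ((y t - W t) / b - 1) = (y t - W t) / b := by ring
  rw [e1, e2] at key
  have key2 := expand_exp hT hR hq1 hC50 (hWR t ⟨ht, le_rfl⟩) ht htT key hB hBq
  refine le_trans (le_of_eq ?_) (key2.trans (le_of_eq ?_))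
  · unfold mainB
    congr 2
    field_simp
  · rw [hq, inv_pow, div_eq_mul_inv]

end Vale.Agent.P167.H411
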