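import Vale.Agent.P167.H411.Asym6
import Vale.Agent.P167.SLE.Asm6

/-!
# P167, block DRV6: the fields `disc` and `drv` of `SeqHyp` for families of simple curves
-/

set_option autoImplicit false
set_option linter.unusedVariables false

open MeasureTheory ProbabilityTheory Filter Topology Set Metric
open scoped NNReal ENNReal

namespace Vale.Agent.P167.H411

open Vale.Agent.P153 (M1.Expl)
open Vale.Agent.P153.R2
open Vale.Agent.P153.R2.L2 (Crv gg cc ww drv tau)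
open Vale.Agent.P153.R2.L2.Crv (drvT)
open Vale.Agent.P153.R2.ARCX (SGen)
open Vale.Agent.P153.R2.DET (Uni)
open Vale.Agent.P153.R2.UNIQ (Disc)
open Vale.Agent.P153.R2.C1
open Vale.Agent.P167.SLE (SeqHyp Cf law IsDrv6 mean_eq)
open Vale.Agent.P167.E6 (edges mean)

namespace DC

variable {A B : Type*} {Q : DC A B} {ψ : ℂ → ℂ} {b : ℂ} {ε : ℝ} {h : A}

open Classical in
/-- The curve on the unit interval. -/
noncomputable def xc (Q : DC A B) (h : A) : C(unitInterval, ℂ) :=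
  if hc : Continuous fun t : unitInterval => Q.X h (Q.K h * t) then ⟨_, hc⟩ else 0

/-- The curve in the half-plane, parametrised by the unit interval. -/
noncomputable def xs (Q : DC A B) (ψ : ℂ → ℂ) (h : A) (t : ℝ) : ℂ := Q.et ψ h (Q.K h * t)

/-- The capacity, parametrised by the unit interval. -/
noncomputable def cs (Q : DC A B) (ψ : ℂ → ℂ) (h : A) (t : ℝ) : ℝ :=
  cc (Q.et ψ h) (Q.K h * t)

/-- The time in the last step from which the curve is near the end point. -/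
noncomputable def T0 (Q : DC A B) (h : A) : ℝ := (Q.K h - 3 / 4) / Q.K h

/-- The time at which the driver is frozen. -/
noncomputable def T1 (Q : DC A B) (h : A) : ℝ := (Q.K h - 1 / 2) / Q.K h

theorem xc_apply (H : Q.WF ψ b ε) (hh : h ∈ Q.C) (t : unitInterval) :
    Q.xc h t = Q.X h (Q.K h * t) := by
  have hc : Continuous fun t : unitInterval => Q.X h (Q.K h * t) := by
    refine (H.cont h hh).comp_continuous (by fun_prop) fun t => ⟨?_, ?_⟩
    · exact mul_nonneg (Nat.cast_nonneg _) t.2.1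
    · have h1 : (Q.K h : ℝ) * t ≤ Q.K h * 1 :=
        mul_le_mul_of_nonneg_left t.2.2 (Nat.cast_nonneg _)
      rwa [mul_one] at h1
  unfold xc
  rw [dif_pos hc]
  rfl

/-- **The curve, its image in the half-plane and its driver**, for any parametrisation. -/
theorem disc_gen (H : Q.WF ψ b ε) (hU : Uni ψ b) (hh : h ∈ Q.C) {x : C(unitInterval, ℂ)}
    {τ : ℝ → ℝ} (hτc : ContinuousOn τ (Icc 0 1)) (hτm : StrictMonoOn τ (Icc 0 1))
    (hτ0 : τ 0 = 0) (hτ1 : τ 1 = Q.K h) (hx : ∀ t : unitInterval, x t = Q.X h (τ t))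
    {T₀ T : ℝ} (hT₀ : T₀ ∈ Icc (0 : ℝ) 1) (hT : T ∈ Icc (0 : ℝ) 1)
    (hTv₀ : τ T₀ = Q.K h - 3 / 4) (hTv : τ T = Q.K h - 1 / 2) :
    Disc ψ b x (fun t => Q.et ψ h (τ t)) (fun t => cc (Q.et ψ h) (τ t)) (Q.wf ψ h) T₀ T
      (2 * ε) := by
  have hcr := H.crv hU hh
  have hν := H.oneR hh
  have hT₀pos : 0 < T₀ := by
    rw [← hτm.lt_iff_lt ⟨le_rfl, zero_le_one⟩ hT₀, hτ0, hTv₀]
    linarith
  have hT₀T : T₀ < T := by
    rw [← hτm.lt_iff_lt hT₀ hT, hTv, hTv₀]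
    linarith
  have hTpos : 0 < T := hT₀pos.trans hT₀T
  have hmem : ∀ t ∈ Ico (0 : ℝ) T, 0 ≤ τ t ∧ τ t < Q.K h := by
    intro t ht
    have ht1 : t ∈ Icc (0 : ℝ) 1 := ⟨ht.1, ht.2.le.trans hT.2⟩
    constructor
    · rw [← hτ0]
      exact hτm.monotoneOn ⟨le_rfl, zero_le_one⟩ ht1 ht.1
    · have h1 := hτm ht1 hT ht.2
      rw [hTv] at h1
      linarith
  constructor
  · exact hT₀pos
  · exact hT₀T
  · exact hT.2
  · intro t ht
    exact H.et_mem hh (hmem t ht).1 (hmem t ht).2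
  · intro t ht
    obtain ⟨h1, h2⟩ := hmem t ⟨t.2.1, ht⟩
    rw [H.psi_et hh h1 h2, hx t]
  · have h1 := (DC.sgen hcr (H.pos h hh)).2
    have h2 : (Q.expl ψ).W h = fun t : ℝ => Q.wf ψ h t.toNNReal := rfl
    rw [h2] at h1
    exact sgen_reparam h1 hTpos (hτc.mono (Icc_subset_Icc_right hT.2))
      (hτm.mono (Icc_subset_Icc_right hT.2)) hτ0 hTv
  · intro t ht
    have h1 : τ T₀ ≤ τ t := hτm.monotoneOn hT₀ t.2 ht
    have h2 : τ t ≤ τ 1 := hτm.monotoneOn t.2 ⟨zero_le_one, le_rfl⟩ t.2.2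
    rw [hTv₀] at h1
    rw [hτ1] at h2
    rw [hx t]
    exact DC.last_near H hh (by linarith) h2

/-- **The curve, its image in the half-plane and its driver.** -/
theorem disc (H : Q.WF ψ b ε) (hU : Uni ψ b) (hh : h ∈ Q.C) :
    Disc ψ b (Q.xc h) (Q.xs ψ h) (Q.cs ψ h) (Q.wf ψ h) (Q.T0 h) (Q.T1 h) (2 * ε) := by
  have hν := H.oneR hh
  have hpos := H.posR hh
  refine disc_gen H hU hh (τ := fun t => Q.K h * t) (by fun_prop) ?_ (mul_zero _) (mul_one _)
    (fun t => xc_apply H hh t) ?_ ?_ ?_ ?_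
  · intro s _ t _ hst
    exact mul_lt_mul_of_pos_left hst hpos
  · unfold T0
    refine ⟨div_nonneg (by linarith) hpos.le, ?_⟩
    rw [div_le_one hpos]
    linarith
  · unfold T1
    refine ⟨div_nonneg (by linarith) hpos.le, ?_⟩
    rw [div_le_one hpos]
    linarith
  · simp only [T0]
    rw [mul_div_cancel₀ _ hpos.ne']
  · simp only [T1]
    rw [mul_div_cancel₀ _ hpos.ne']

end DC

/-! ### `SeqHyp` -/

section

variable {B : Type*} {S : ℕ → Finset (ℤ × ℤ)} {Q : ℕ → DC (Finset (Sym2 (ℤ × ℤ))) B}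
  {ψn : ℕ → ℂ → ℂ} {bn : ℕ → ℂ} {ε : ℕ → ℝ} {ψ : ℂ → ℂ} {b : ℂ}

/-- The mean over the configurations. -/
theorem ex_law (S : Finset (ℤ × ℤ)) (F : Finset (Sym2 (ℤ × ℤ)) → ℝ) :
    Ex (((edges S).powerset : Finset _) : Set (Finset (Sym2 (ℤ × ℤ)))) F =
      ∫ a : Cf S, F a.1 ∂(law S) := by
  rw [← mean_eq, mean, Ex, finsum_mem_coe_finset, Set.ncard_coe_finset, Finset.card_powerset]
  push_cast
  rfl

/-- **The hypotheses of the curve theorem**, from the closeness of the observable to conditional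
expectations and the a priori estimates. -/
theorem seqHyp [MeasurableSpace C(ℝ≥0, ℝ)] [BorelSpace C(ℝ≥0, ℝ)]
    (hQ : ∀ n, (Q n).C = (((edges (S n)).powerset : Finset _) : Set _))
    (H : DCs Q ψn bn ε ψ b) {O : (ℝ → ℝ) → ℝ → ℝ → ℝ} {c₀ c₁ c₂ : ℝ} (hE : Expn O 6 c₀ c₁ c₂)
    (hC : Close (fun n => (Q n).expl (ψn n)) O) {R : ℝ}
    (bdd : ∀ (n : ℕ) (a : Cf (S n)) (t : unitInterval), ‖(Q n).xc a.1 t‖ ≤ R)
    (cross : ∀ (y : ℂ) (r : ℝ), 0 < r → ∀ q : ℝ≥0∞, 0 < q → ∃ k : ℕ, ∀ᶠ n in atTop,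
      law (S n) {a : Cf (S n) | Cross ((Q n).xc a.1) y r (3 * r) k} ≤ q)
    (fin : ∀ r : ℝ, 0 < r → ∀ q : ℝ≥0∞, 0 < q → ∃ r' : ℝ, 0 < r' ∧ ∀ᶠ n in atTop,
      law (S n) {a : Cf (S n) | ∃ s t : unitInterval, s ≤ t ∧ dist ((Q n).xc a.1 s) b < r' ∧
        r < dist ((Q n).xc a.1 t) b} ≤ q)
    (tip : ∀ e : ℝ, 0 < e → ∀ r : ℝ, 0 < r → ∀ q : ℝ≥0∞, 0 < q → ∃ d : ℝ, 0 < d ∧
      ∀ᶠ n in atTop, law (S n) {a : Cf (S n) | ∃ s t : unitInterval, s ≤ t ∧
        (t : ℝ) < (Q n).T1 a.1 ∧ (∀ u ∈ Icc s t, r ≤ dist ((Q n).xc a.1 u) b) ∧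
        e ≤ dist ((Q n).xc a.1 s) ((Q n).xc a.1 t) ∧
        (Q n).cs (ψn n) a.1 t - (Q n).cs (ψn n) a.1 s < d} ≤ q) :
    ∃ lam : Measure C(ℝ≥0, ℝ), IsDrv6 lam ∧
      SeqHyp ψn ψ bn b (fun n => 2 * ε n) (fun n => Cf (S n)) (fun n => law (S n))
        (fun n a => (Q n).xc a.1) (fun n a => (Q n).xs (ψn n) a.1)
        (fun n a => (Q n).cs (ψn n) a.1) (fun n a => (Q n).wf (ψn n) a.1)
        (fun n a => (Q n).T0 a.1) (fun n a => (Q n).T1 a.1) lam R := by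
  obtain ⟨lam, hlam, hB, hlim⟩ := drv_weak (by norm_num) hE H.asymB hC
  refine ⟨lam, hB, ?_⟩
  have hmem : ∀ n (a : Cf (S n)), a.1 ∈ (Q n).C := fun n a => by
    rw [hQ n]
    exact a.2
  exact
    { prob := fun n => inferInstance
      problam := hlam
      uni := H.uni
      unif := H.unif
      endp := H.endp
      eps := by simpa using H.eps.const_mul 2
      disc := fun n a => DC.disc (H.wf n) (H.unin n) (hmem n a)
      drv := by
        intro f hf hM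
        refine (hlim f hf hM).congr fun n => ?_
        change Ex (Q n).C (fun h => f ((Q n).wf (ψn n) h)) = _
        rw [hQ n, ex_law]
      bdd := bdd
      cross := cross
      fin := fin
      tip := tip }

end

end Vale.Agent.P167.H411
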