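import Vale.Agent.P167.H411.Corner
import Vale.Agent.P167.H411.Disc6
import Vale.Agent.P167.S6.Tip2

/-!
# P167, END: the inputs of `S_seq`

The five inputs from which `H411/Seqh6.lean` proves `SLE.S_seq` (all for the lattice domains
`E2.Om (δ n) (S n)` and the corner curves `E2.Xc` of block E2):

* `I_rado6`: uniformizers of the lattice domains, converging uniformly;
* `I_close6 O`: the observable `O` (`obsF` or `obsC`) is close to conditional expectations;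
* `I_cross6`: tightness of the crossing numbers of fixed annuli;
* `I_fin6`: no return from `b`;
* `I_nf6`: no fjords.
-/

set_option autoImplicit false
set_option linter.unusedVariables false

open MeasureTheory ProbabilityTheory Filter Topology Set Metric
open scoped NNReal ENNReal

namespace Vale.Agent.P167.H411

open Vale.Agent.P153.R2
open Vale.Agent.P153.R2.DET (Uni HC)
open Vale.Agent.P153.R2.R1 (IsU)
open Vale.Agent.P153.R2.C1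
open Vale.Agent.P153.R2.Final (dom circ toC IsUniformizer)
open Vale.Agent.P167.SLE (Cf law bq)
open Vale.Agent.P167.E6 Vale.Agent.P167.E2

/-- The frame: an approximation of a marked Jordan domain and uniformizers of the domains
`Om (δ n) (S n)`, which converge uniformly. (For the finitely many degenerate `n` with
`k n + 1 = N n` there is no condition.) -/
structure Set6 (Φ : (ℝ × ℝ) ≃ₜ (ℝ × ℝ)) (ψ : ℂ → ℂ) (δ : ℕ → ℝ) (N k : ℕ → ℕ)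
    (p : ∀ n, ZMod (N n) → ℤ × ℤ) (S : ℕ → Finset (ℤ × ℤ)) (ψn : ℕ → ℂ → ℂ) : Prop where
  unif : IsUniformizer Φ ψ
  appr : Approx Φ δ N k p S
  isU : ∀ n, k n + 1 < N n →
    IsU (ψn n) (Om (δ n) (S n)) (aM (p n) (δ n)) (bM (p n) (k n) (δ n))
  uni : ∀ n, k n + 1 < N n → Uni (ψn n) (bM (p n) (k n) (δ n))
  conv : ∀ ε > 0, ∀ᶠ n in atTop, ∀ z : ℂ, 0 ≤ z.im → dist (ψn n z) (ψ z) < ε

/-- The exploration of the corner curves: the outcomes are the sets of open edges, the state after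
`j` steps is `run (j - 1)`, the number of steps is `nu`, the capacities and the driver are those of
the image of the curve in the half-plane under the inverse of `ψn n`. -/
noncomputable def exn (δ : ℕ → ℝ) (N k : ℕ → ℕ) (p : ∀ n, ZMod (N n) → ℤ × ℤ)
    (S : ℕ → Finset (ℤ × ℤ)) (ψn : ℕ → ℂ → ℂ) (n : ℕ) :
    Vale.Agent.P153.M1.Expl (Finset (Sym2 (ℤ × ℤ))) Medial :=
  (Qc (p n) (k n) (δ n) (S n)).expl (ψn n)

/-- Input (327): uniformizers of the lattice domains. -/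
def I_rado6 : Prop := ∀ (Φ : (ℝ × ℝ) ≃ₜ (ℝ × ℝ)) (ψ : ℂ → ℂ), IsUniformizer Φ ψ →
  ∀ (δ : ℕ → ℝ) (N k : ℕ → ℕ) (p : ∀ n, ZMod (N n) → ℤ × ℤ) (S : ℕ → Finset (ℤ × ℤ)),
    Approx Φ δ N k p S → ∃ ψn : ℕ → ℂ → ℂ, Set6 Φ ψ δ N k p S ψn

/-- Input (653, 170, 756, 531, 450, CORE): the observable `O` (`obsF` or `obsC`) is close to
conditional expectations. -/
def I_close6 (O : (ℝ → ℝ) → ℝ → ℝ → ℝ) : Prop := ∀ (Φ : (ℝ × ℝ) ≃ₜ (ℝ × ℝ)) (ψ : ℂ → ℂ)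
  (δ : ℕ → ℝ) (N k : ℕ → ℕ) (p : ∀ n, ZMod (N n) → ℤ × ℤ) (S : ℕ → Finset (ℤ × ℤ))
  (ψn : ℕ → ℂ → ℂ), Set6 Φ ψ δ N k p S ψn → Close (exn δ N k p S ψn) O

/-- Input (161): the crossing numbers of fixed annuli are tight. -/
def I_cross6 : Prop := ∀ (Φ : (ℝ × ℝ) ≃ₜ (ℝ × ℝ)) (δ : ℕ → ℝ) (N k : ℕ → ℕ)
  (p : ∀ n, ZMod (N n) → ℤ × ℤ) (S : ℕ → Finset (ℤ × ℤ)), Approx Φ δ N k p S →
  ∀ (y : ℂ) (r : ℝ), 0 < r → ∀ q : ℝ≥0∞, 0 < q → ∃ m : ℕ, ∀ᶠ n in atTop,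
    law (S n) {a : Cf (S n) | Cross (Xc (p n) (k n) (δ n) a.1) y r (3 * r) m} ≤ q

/-- Input (174): no return from `b`. -/
def I_fin6 : Prop := ∀ (Φ : (ℝ × ℝ) ≃ₜ (ℝ × ℝ)) (δ : ℕ → ℝ) (N k : ℕ → ℕ)
  (p : ∀ n, ZMod (N n) → ℤ × ℤ) (S : ℕ → Finset (ℤ × ℤ)), Approx Φ δ N k p S →
  ∀ r : ℝ, 0 < r → ∀ q : ℝ≥0∞, 0 < q → ∃ r' : ℝ, 0 < r' ∧ ∀ᶠ n in atTop,
    law (S n) {a : Cf (S n) | ∃ s t : unitInterval, s ≤ t ∧
      dist (Xc (p n) (k n) (δ n) a.1 s) (bq Φ) < r' ∧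
      r < dist (Xc (p n) (k n) (δ n) a.1 t) (bq Φ)} ≤ q

/-- Input (991, 634): no fjords. -/
def I_nf6 : Prop := ∀ (Φ : (ℝ × ℝ) ≃ₜ (ℝ × ℝ)) (δ : ℕ → ℝ) (N k : ℕ → ℕ)
  (p : ∀ n, ZMod (N n) → ℤ × ℤ) (S : ℕ → Finset (ℤ × ℤ)), Approx Φ δ N k p S →
  ∀ e : ℝ, 0 < e → ∀ r₁ : ℝ, 0 < r₁ → ∀ q : ℝ≥0∞, 0 < q → ∃ ρ : ℝ, 0 < ρ ∧ ∀ᶠ n in atTop,
    law (S n) {a : Cf (S n) | S6.FJR (Om (δ n) (S n)) (bM (p n) (k n) (δ n))
      (Xc (p n) (k n) (δ n) a.1) 1 ρ e r₁} ≤ q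

end Vale.Agent.P167.H411
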