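import Vale.Agent.P153.R2.L2.Driver
import Vale.Agent.P153.R2.HULL.Bounds
import Vale.Agent.P153.R2.UNIQ.Inputs
import Vale.Agent.P153.R2.DET.Defs

/-!
# P167, block DRV6: simple curves and their drivers

Lattice-free facts on the driver of a simple curve of the half-plane (copied from block DRV of P153,
where they sit on top of the triangular lattice).
-/

set_option autoImplicit false
set_option linter.unusedVariables false

open MeasureTheory ProbabilityTheory Filter Topology Set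
open scoped NNReal ENNReal

namespace Vale.Agent.P167.H411

open Vale.Agent.P153.R2
open Vale.Agent.P153.R2.L2 (Crv gg cc ww drv tau)
open Vale.Agent.P153.R2.L2.Crv (drvT)
open Vale.Agent.P153.R2.ARCX (SGen)
open Vale.Agent.P164 (loewnerDomain)

/-! ### The inverse of a map which is continuous up to the boundary -/

/-- Inverses of continuous injective maps of closed sets, with a limit at infinity which is not a
value, are continuous. -/
theorem inv_cont {ψ : ℂ → ℂ} {A : Set ℂ} (hA : IsClosed A) (hc : ContinuousOn ψ A)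
    (hi : InjOn ψ A) {b : ℂ} (hinf : Tendsto ψ (Bornology.cobounded ℂ ⊓ 𝓟 A) (𝓝 b))
    (hne : ∀ z ∈ A, ψ z ≠ b) : ContinuousOn (Function.invFunOn ψ A) (ψ '' A) := by
  rintro _ ⟨z, hz, rfl⟩
  have hinv : ∀ y ∈ ψ '' A, Function.invFunOn ψ A y ∈ A ∧ ψ (Function.invFunOn ψ A y) = y := by
    intro y hy
    exact ⟨Function.invFunOn_mem hy, Function.invFunOn_eq hy⟩
  have hz' : Function.invFunOn ψ A (ψ z) = z := by
    obtain ⟨h1, h2⟩ := hinv _ (mem_image_of_mem ψ hz)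
    exact hi h1 hz h2
  unfold ContinuousWithinAt
  rw [hz', tendsto_iff_ultrafilter]
  intro g hg
  set u := g.map (Function.invFunOn ψ A) with hu
  have hgA : ψ '' A ∈ (g : Filter ℂ) := hg self_mem_nhdsWithin
  have huA : A ∈ (u : Filter ℂ) := by
    rw [hu, Ultrafilter.coe_map, Filter.mem_map]
    filter_upwards [hgA] with y hy using (hinv y hy).1
  have hψu : Tendsto ψ (u : Filter ℂ) (𝓝 (ψ z)) := by
    rw [hu, Ultrafilter.coe_map, Filter.tendsto_map'_iff]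
    have h1 : Tendsto (fun y : ℂ => y) (g : Filter ℂ) (𝓝 (ψ z)) :=
      hg.trans nhdsWithin_le_nhds
    refine h1.congr' ?_
    filter_upwards [hgA] with y hy using (hinv y hy).2.symm
  change (u : Filter ℂ) ≤ 𝓝 z
  by_cases hb : ∃ M : ℝ, Metric.closedBall (0 : ℂ) M ∈ (u : Filter ℂ)
  · obtain ⟨M, hM⟩ := hb
    have hcpt : IsCompact (Metric.closedBall (0 : ℂ) M ∩ A) :=
      (isCompact_closedBall 0 M).inter_right hA
    obtain ⟨z', hz'1, hz'2⟩ := hcpt.ultrafilter_le_nhds u (le_principal_iff.2 (inter_mem hM huA))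
    have h1 : Tendsto ψ (u : Filter ℂ) (𝓝 (ψ z')) := by
      have h2 : (u : Filter ℂ) ≤ 𝓝[A] z' := by
        rw [nhdsWithin]
        exact le_inf hz'2 (le_principal_iff.2 huA)
      exact (hc z' hz'1.2).mono_left h2
    have h2 := tendsto_nhds_unique h1 hψu
    rw [← hi hz'1.2 hz h2]
    exact hz'2
  · push Not at hb
    exfalso
    have h1 : (u : Filter ℂ) ≤ Bornology.cobounded ℂ := by
      intro s hs
      rw [← compl_compl s] at hs ⊢
      have h2 : Bornology.IsBounded sᶜ := by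
        rw [Bornology.isBounded_def]
        exact hs
      obtain ⟨M, hM⟩ := h2.subset_closedBall 0
      have h3 := hb M
      rw [Ultrafilter.mem_coe, ← Ultrafilter.compl_mem_iff_notMem] at h3
      exact mem_of_superset h3 (compl_subset_compl.2 hM)
    have h2 : Tendsto ψ (u : Filter ℂ) (𝓝 b) :=
      hinf.mono_left (le_inf h1 (le_principal_iff.2 huA))
    exact hne z hz (tendsto_nhds_unique hψu h2)

/-! ### The driver along a simple curve -/

section Crv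

variable {γ γ' : ℝ → ℂ} {T T' : ℝ}

theorem drvT_cc (h : Crv γ T) {t t₁ : ℝ} (h0 : 0 ≤ t) (ht : t ≤ t₁) (ht₁ : t₁ < T) :
    drvT γ T t₁ (cc γ t) = ww γ t := by
  have htT : t ∈ Ico 0 T := ⟨h0, ht.trans_lt ht₁⟩
  rw [L2.Crv.drvT_eq (h.cap_nonneg htT)
    (h.strictMono.monotoneOn htT ⟨h0.trans ht, ht₁⟩ ht), h.drv_cc htT]

theorem ww_cont (h : Crv γ T) : ContinuousOn (ww γ) (Ico 0 T) := by
  intro t ht
  set t₂ := (t + T) / 2 with ht₂
  have h1 : t < t₂ := by rw [ht₂]; linarith [ht.2]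
  have h2 : t₂ < T := by rw [ht₂]; linarith [ht.2]
  have h3 : ContinuousOn (ww γ) (Icc 0 t₂) := by
    have h4 : ContinuousOn (fun s => drvT γ T t₂ (cc γ s)) (Icc 0 t₂) :=
      (h.continuous_drvT ⟨ht.1.trans h1.le, h2⟩).comp_continuousOn
        (h.cap_cont.mono fun s hs => ⟨hs.1, hs.2.trans_lt h2⟩)
    exact h4.congr fun s hs => (drvT_cc h hs.1 hs.2 h2).symm
  refine (h3 t ⟨ht.1, h1.le⟩).mono_of_mem_nhdsWithin ?_
  rw [mem_nhdsWithin]
  exact ⟨Iio t₂, isOpen_Iio, h1, fun s hs => ⟨hs.2.1, hs.1.le⟩⟩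

theorem ww_zero (h : Crv γ T) : (ww γ 0 : ℂ) = γ 0 := by
  rw [← h.drv_zero]
  have := h.drv_cc (t := 0) ⟨le_rfl, h.pos⟩
  rw [h.cap_zero] at this
  rw [this]

theorem gg_congr {t : ℝ} (he : ∀ s ∈ Icc 0 t, γ' s = γ s) : gg γ' t = gg γ t := by
  have h1 : γ' '' Icc 0 t = γ '' Icc 0 t := image_congr he
  unfold L2.gg
  rw [h1]

theorem cc_congr {t : ℝ} (he : ∀ s ∈ Icc 0 t, γ' s = γ s) : cc γ' t = cc γ t := by
  unfold L2.cc
  rw [gg_congr he]

theorem ww_congr_lt {s t : ℝ} (hst : s < t) (he : ∀ u ∈ Icc 0 t, γ' u = γ u) (hs : 0 ≤ s) :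
    ww γ' s = ww γ s := by
  unfold L2.ww
  rw [gg_congr fun u hu => he u ⟨hu.1, hu.2.trans hst.le⟩]
  congr 1
  unfold limUnder
  congr 1
  refine Filter.map_congr ?_
  filter_upwards [Ioo_mem_nhdsGT hst] with u hu
  rw [he u ⟨hs.trans hu.1.le, hu.2.le⟩]

/-- The driver depends only on the past. -/
theorem ww_congr (h : Crv γ T) (h' : Crv γ' T') {t : ℝ} (h0 : 0 ≤ t) (ht : t < T) (ht' : t < T')
    (he : ∀ u ∈ Icc 0 t, γ' u = γ u) : ww γ' t = ww γ t := by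
  rcases h0.eq_or_lt with h0 | h0
  · have h1 := ww_zero h
    have h2 := ww_zero h'
    rw [← h0]
    have h3 := he 0 ⟨le_rfl, h0.le⟩
    rw [h3, ← h1] at h2
    exact_mod_cast h2
  · have hne : (𝓝[<] t).NeBot := inferInstance
    have a1 : Tendsto (ww γ) (𝓝[<] t) (𝓝 (ww γ t)) := by
      refine (ww_cont h t ⟨h0.le, ht⟩).mono_left ?_
      rw [← nhdsWithin_Ioo_eq_nhdsLT h0]
      exact nhdsWithin_mono _ fun s hs => ⟨hs.1.le, hs.2.trans ht⟩
    have a2 : Tendsto (ww γ') (𝓝[<] t) (𝓝 (ww γ' t)) := by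
      refine (ww_cont h' t ⟨h0.le, ht'⟩).mono_left ?_
      rw [← nhdsWithin_Ioo_eq_nhdsLT h0]
      exact nhdsWithin_mono _ fun s hs => ⟨hs.1.le, hs.2.trans ht'⟩
    refine tendsto_nhds_unique (a2.congr' ?_) a1
    filter_upwards [Ioo_mem_nhdsLT h0] with s hs
    exact ww_congr_lt hs.2 he hs.1.le

end Crv

/-! ### The curve is bounded in terms of the capacity and the driver -/

theorem curve_bd {γ : ℝ → ℂ} {T : ℝ} (h : Crv γ T) {t M : ℝ} (h0 : 0 ≤ t) (ht : t < T)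
    (hM : ∀ s ∈ Icc 0 t, |ww γ s| ≤ M) (hγ : γ 0 = 0) : ‖γ t‖ ≤ M + 3 * √(cc γ t) := by
  have hM0 : 0 ≤ M := (abs_nonneg _).trans (hM 0 ⟨le_rfl, h0⟩)
  rcases h0.eq_or_lt with h1 | h1
  · rw [← h1, hγ, norm_zero]
    positivity
  · by_contra hc
    push Not at hc
    have htT : t ∈ Ico 0 T := ⟨h0, ht⟩
    have hcc : 0 < cc γ t := by
      have := h.cap_strict le_rfl h1 ht
      rwa [h.cap_zero] at this
    have h2 := HULL.far_alive (W := drvT γ T t) (h.continuous_drvT htT) hcc (M := M) (fun u hu => by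
      obtain ⟨s, hs, hsu⟩ := h.Icc_sub htT hu
      rw [← hsu, drvT_cc h hs.1 hs.2 ht]
      exact hM s hs) (h.im_pos t ⟨h1, ht⟩) hc
    have h3 := h2.1
    rw [L2.loewnerDomain_congr (W' := drv γ T) (fun s hs => L2.Crv.drvT_eq hs.1 hs.2),
      h.dom htT] at h3
    exact h3.2 ⟨t, ⟨h0, le_rfl⟩, rfl⟩

/-! ### Change of parameter -/

theorem sgen_reparam {W : ℝ → ℝ} {η : ℝ → ℂ} {c : ℝ → ℝ} {T₁ T : ℝ} (h : SGen W η c T₁)
    {σ : ℝ → ℝ} (hT : 0 < T) (hc : ContinuousOn σ (Icc 0 T)) (hm : StrictMonoOn σ (Icc 0 T))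
    (h0 : σ 0 = 0) (h1 : σ T = T₁) : SGen W (fun t => η (σ t)) (fun t => c (σ t)) T := by
  have hmaps : MapsTo σ (Ico 0 T) (Ico 0 T₁) := by
    intro t ht
    refine ⟨?_, ?_⟩
    · rw [← h0]
      exact hm.monotoneOn ⟨le_rfl, hT.le⟩ ⟨ht.1, ht.2.le⟩ ht.1
    · rw [← h1]
      exact hm ⟨ht.1, ht.2.le⟩ ⟨hT.le, le_rfl⟩ ht.2
  have hc' : ContinuousOn σ (Ico 0 T) := hc.mono Ico_subset_Icc_self
  have hm' : StrictMonoOn σ (Ico 0 T) := hm.mono Ico_subset_Icc_self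
  refine ⟨hT, h.cont.comp hc' hmaps, h.inj.comp hm'.injOn hmaps, fun t ht => ?_, ?_,
    h.contc.comp hc' hmaps, fun s hs t ht hst => h.mono (hmaps hs) (hmaps ht) (hm' hs ht hst),
    ?_, fun t ht => ?_⟩
  · refine h.im_pos _ ⟨?_, (hmaps ⟨ht.1.le, ht.2⟩).2⟩
    rw [← h0]
    exact hm ⟨le_rfl, hT.le⟩ ⟨ht.1.le, ht.2.le⟩ ht.1
  · rw [h0]
    exact h.start
  · rw [h0]
    exact h.c_zero
  · rw [h.dom _ (hmaps ht)]
    congr 1
    ext z
    constructor
    · rintro ⟨s, hs, rfl⟩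
      have h2 : Icc (σ 0) (σ t) ⊆ σ '' Icc 0 t :=
        intermediate_value_Icc ht.1 (hc'.mono fun u hu => ⟨hu.1, hu.2.trans_lt ht.2⟩)
      rw [h0] at h2
      obtain ⟨u, hu, rfl⟩ := h2 hs
      exact ⟨u, hu, rfl⟩
    · rintro ⟨u, hu, rfl⟩
      have hu' : u ∈ Icc 0 T := ⟨hu.1, hu.2.trans ht.2.le⟩
      refine ⟨σ u, ⟨?_, hm.monotoneOn hu' ⟨ht.1, ht.2.le⟩ hu.2⟩, rfl⟩
      rw [← h0]
      exact hm.monotoneOn ⟨le_rfl, hT.le⟩ hu' hu.1

end Vale.Agent.P167.H411
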