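import Vale.Agent.P167.H411.Inputs6
import Vale.Agent.P167.H327.Geo6
import Vale.Agent.P153.R2.R1.Out1

/-!
# P167, END: the input `I_rado6`
-/

set_option autoImplicit false
set_option linter.unusedVariables false

open Filter Topology Set Metric

namespace Vale.Agent.P167.H411

open Vale.Agent.P153.R2
open Vale.Agent.P153.R2.DET (Uni HC)
open Vale.Agent.P153.R2.R1 (IsU)
open Vale.Agent.P167.E6 Vale.Agent.P167.E2

/-- **Uniformizers of the lattice domains.** -/
theorem i_rado6 : I_rado6 := by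
  intro Φ ψ hψ δ N k p S hA
  obtain ⟨b', ψn, hb, -, hU, hconv⟩ := H327.rado_Om hA hψ
  refine ⟨ψn, hψ, hA, ?_, ?_, ?_⟩
  · intro n hn
    have h := (hU n).2.2.1
    rwa [hb n hn] at h
  · intro n hn
    obtain ⟨-, -, h, hi⟩ := hU n
    rw [hb n hn] at h
    obtain ⟨h1, -, -, h4, h5⟩ := hA.1 n
    have h6 := h.injOn (H327.good_Om6 h1 h4 h5).nocut
    exact ⟨h.cont, h6.1, h.infty, h6.2⟩
  · intro ε hε
    filter_upwards [Metric.tendstoUniformlyOn_iff.1 hconv ε hε] with n hn z hz
    rw [dist_comm]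
    exact hn z hz

end Vale.Agent.P167.H411
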