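import Vale.Agent.P167.H411.End6
import Vale.Agent.P167.H411.Rado

/-!
# P167, END: the curve theorem from the remaining inputs
-/

set_option autoImplicit false
set_option linter.unusedVariables false

namespace Vale.Agent.P167.H411

open Vale.Agent.P167.E6 Vale.Agent.P167.E2

/-- **The curve theorem** from the observable (`I_close6`), crossing numbers (`I_cross6`), no return
(`I_fin6`) and no fjords (`I_nf6`). -/
theorem curveLimit_of4 {O : (ℝ → ℝ) → ℝ → ℝ → ℝ} {c₀ c₁ c₂ : ℝ} (hE : Expn O 6 c₀ c₁ c₂)
    (hclose : I_close6 O) (hcross : I_cross6) (hfin : I_fin6) (hnf : I_nf6) :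
    CurveLimit :=
  curveLimit_of hE i_rado6 hclose hcross hfin hnf

end Vale.Agent.P167.H411
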