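import Vale.Agent.P167.H411.Seqh6
import Vale.Agent.P167.H446.Exap
import Vale.Agent.P153.R2.R1.Out1

/-!
# P167, END: the curve theorem from the five inputs of `Inputs6.lean`
-/

set_option autoImplicit false
set_option linter.unusedVariables false

namespace Vale.Agent.P167.H411

open Vale.Agent.P167.E6 Vale.Agent.P167.E2

/-- The interface exists. -/
theorem s_intf : SLE.S_intf := fun n k p S δ _ h0 hk hp hS A hA =>
  ⟨crv p k δ A, isInterface_crv hp hS h0 hk hA δ⟩

/-- **The curve theorem** from its five inputs. -/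
theorem curveLimit_of {O : (ℝ → ℝ) → ℝ → ℝ → ℝ} {c₀ c₁ c₂ : ℝ} (hE : Expn O 6 c₀ c₁ c₂)
    (hrado : I_rado6) (hclose : I_close6 O) (hcross : I_cross6) (hfin : I_fin6) (hnf : I_nf6) :
    CurveLimit :=
  SLE.curveLimit Vale.Agent.P153.R2.R1.i_unif Vale.Agent.P153.R2.R1.i_uinj
    (s_seq Vale.Agent.P153.R2.R1.i_uinj hrado hE hclose hcross hfin hnf) s_intf H446.Exap.s_exap

/-- The case of the three-point observable. -/
theorem curveLimit_obsF (hrado : I_rado6) (hclose : I_close6 obsF) (hcross : I_cross6)
    (hfin : I_fin6) (hnf : I_nf6) : CurveLimit :=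
  curveLimit_of expn_obsF hrado hclose hcross hfin hnf

/-- The case of Cardy's observable. -/
theorem curveLimit_obsC (hrado : I_rado6) (hclose : I_close6 obsC) (hcross : I_cross6)
    (hfin : I_fin6) (hnf : I_nf6) : CurveLimit :=
  curveLimit_of expn_obsC hrado hclose hcross hfin hnf

end Vale.Agent.P167.H411
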