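import Vale.Agent.P167.H411.Scale
import Vale.Agent.P153.R2.M1.Obs

/-!
# P167, block DRV6: from an observable with an expansion at infinity to the approximate martingale
problem
-/

set_option linter.unusedSectionVars false
set_option linter.unusedVariables false

namespace Vale.Agent.P167.H411

open MeasureTheory ProbabilityTheory Filter Topology Set
open Vale.Agent.P153.M1

/-- The observable `O W b t` (a function of the driver on `[0,t]`, of a far boundary point `b` and of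
the time) has the expansion `c₀ + c₁ W_t / b + c₂ (W_t² - v t) / b² + O(b⁻³)`. -/
structure Expn (O : (ℝ → ℝ) → ℝ → ℝ → ℝ) (v c₀ c₁ c₂ : ℝ) : Prop where
  h1 : c₁ ≠ 0
  h2 : c₂ ≠ 0
  exp : ∀ T R : ℝ, 0 ≤ T → 0 ≤ R → ∃ C b₀ : ℝ, 0 ≤ C ∧ 0 < b₀ ∧
    ∀ (W : ℝ → ℝ) (b t : ℝ), 0 ≤ t → t ≤ T → ContinuousOn W (Icc 0 t) →
      (∀ s ∈ Icc 0 t, |W s| ≤ R) → b₀ ≤ b →
      |O W b t - (c₀ + c₁ * W t / b + c₂ * (W t ^ 2 - v * t) / b ^ 2)| ≤ C / b ^ 3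

/-- The main terms. -/
noncomputable def mn (v c₁ c₂ b w t : ℝ) : ℝ := c₁ * w / b + c₂ * (w ^ 2 - v * t) / b ^ 2

section

variable {Ω : ℕ → Type*} [mΩ : ∀ n, MeasurableSpace (Ω n)] (S : Sys Ω)

/-- The observable is an approximate martingale: for all large `b` there are points `bn → b` at
which the observable at stopping indices before the exit from `[0, T] × [-R, R]` has asymptotically
vanishing conditional increments. -/
structure ObsG (O : (ℝ → ℝ) → ℝ → ℝ → ℝ) (P : ∀ n, Measure (Ω n)) : Prop where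
  cont : ∀ n ω, ContinuousOn (S.W n ω) (Ici 0)
  meas : ∀ n k b, Measurable fun ω => O (S.W n ω) b (S.τ n k ω)
  mart : ∀ T R : ℝ, 0 ≤ T → 0 < R → ∃ b₁ : ℝ, ∀ b : ℝ, b₁ ≤ b →
    ∃ bn : ℕ → ℝ, Tendsto bn atTop (𝓝 b) ∧ ∀ (κ κ' : ∀ n, Ω n → ℕ) (Y : ∀ n, Ω n → ℝ),
      (∀ n, IsStop (S.F n) (κ n)) → S.St T R κ' → (∀ n ω, κ n ω ≤ κ' n ω) →
      (∀ n, Past (S.F n) (κ n) (Y n)) → (∀ n ω, |Y n ω| ≤ 1) →
      Tendsto (fun n => ∫ ω, (O (S.W n ω) (bn n) (S.Ta κ' n ω) -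
        O (S.W n ω) (bn n) (S.Ta κ n ω)) * Y n ω ∂(P n)) atTop (𝓝 0)

variable {S} {O : (ℝ → ℝ) → ℝ → ℝ → ℝ} {v c₀ c₁ c₂ : ℝ}
  {P : ∀ n, Measure (Ω n)} [∀ n, IsProbabilityMeasure (P n)]
  {κ κ' : ∀ n, Ω n → ℕ} {T R : ℝ}

theorem O_meas (hO : ObsG S O P) (hκ : ∀ n, IsStop (S.F n) (κ n)) (b : ℝ) (n : ℕ) :
    Measurable fun ω => O (S.W n ω) b (S.Ta κ n ω) := by
  intro s hs
  have : (fun ω => O (S.W n ω) b (S.Ta κ n ω)) ⁻¹' s = ⋃ k, ({ω | κ n ω = k} ∩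
      (fun ω => O (S.W n ω) b (S.τ n k ω)) ⁻¹' s) := by
    ext ω
    simp only [mem_preimage, mem_iUnion, mem_inter_iff, mem_ofPred_eq]
    exact ⟨fun h => ⟨κ n ω, rfl, h⟩, fun ⟨k, h1, h2⟩ => by subst h1; exact h2⟩
  rw [this]
  exact MeasurableSet.iUnion fun k => ((S.F n).le k _ ((hκ n).eq k)).inter (hO.meas n k b hs)

theorem mn_sub (b b' : ℝ) {w t C : ℝ} (hv : 0 ≤ v) (hw : |w| ≤ C) (ht0 : 0 ≤ t) (ht : t ≤ C) :
    |mn v c₁ c₂ b w t - mn v c₁ c₂ b' w t| ≤ |c₁| * C * |b⁻¹ - b'⁻¹| +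
      |c₂| * (C ^ 2 + v * C) * |(b ^ 2)⁻¹ - (b' ^ 2)⁻¹| := by
  unfold mn
  have e1 : c₁ * w / b + c₂ * (w ^ 2 - v * t) / b ^ 2 -
      (c₁ * w / b' + c₂ * (w ^ 2 - v * t) / b' ^ 2) =
      c₁ * w * (b⁻¹ - b'⁻¹) + c₂ * (w ^ 2 - v * t) * ((b ^ 2)⁻¹ - (b' ^ 2)⁻¹) := by
    simp only [div_eq_mul_inv]
    ring
  rw [e1]
  have hvt : v * t ≤ v * C := mul_le_mul_of_nonneg_left ht hv
  have hvt0 : 0 ≤ v * t := mul_nonneg hv ht0
  have h1 : w ^ 2 ≤ C ^ 2 := by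
    rw [← sq_abs w]; exact pow_le_pow_left₀ (abs_nonneg _) hw 2
  have h2 : |w ^ 2 - v * t| ≤ C ^ 2 + v * C := by
    have := sq_nonneg w
    have := sq_nonneg C
    rw [abs_le]
    constructor <;> linarith
  refine (abs_add_le _ _).trans (add_le_add ?_ ?_)
  · rw [abs_mul, abs_mul]
    gcongr
  · rw [abs_mul, abs_mul]
    gcongr

/-- The main terms of the expansion have small conditional increments. -/
theorem main_diff (hv : 0 ≤ v) (hE : Expn O v c₀ c₁ c₂) (hS : S.Ok) (hO : ObsG S O P)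
    (hT : 0 ≤ T) (hR : 0 < R) :
    ∃ C b₀ : ℝ, 0 ≤ C ∧ 0 < b₀ ∧ ∀ b : ℝ, b₀ ≤ b → ∀ (κ κ' : ∀ n, Ω n → ℕ)
      (Y : ∀ n, Ω n → ℝ), (∀ n, IsStop (S.F n) (κ n)) → S.St T R κ' →
      (∀ n ω, κ n ω ≤ κ' n ω) → (∀ n, Past (S.F n) (κ n) (Y n)) → (∀ n ω, |Y n ω| ≤ 1) →
      ∀ δ : ℝ, 0 < δ → ∀ᶠ n in atTop, |∫ ω, (mn v c₁ c₂ b (S.Va κ' n ω) (S.Ta κ' n ω) -
        mn v c₁ c₂ b (S.Va κ n ω) (S.Ta κ n ω)) * Y n ω ∂(P n)| ≤ C / b ^ 3 + δ := by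
  obtain ⟨C, hC0, hC⟩ := hS.path_bd T R
  obtain ⟨C2, b₀, hC2, hb₀, hexp⟩ := hE.exp C C hC0.le hC0.le
  obtain ⟨b₁, hmart⟩ := hO.mart T R hT hR
  refine ⟨16 * C2, 2 * b₀ + |b₁|, by positivity, by positivity, ?_⟩
  intro b hb κ κ' Y hκ hκ' hle hY hY1 δ hδ
  have hb0 : 0 < b := lt_of_lt_of_le (by positivity) hb
  have hb1 : b₁ ≤ b := by
    have := le_abs_self b₁
    linarith
  have hκs : S.St T R κ := hκ'.of_le hκ hle
  obtain ⟨bn, hbn, hm⟩ := hmart b hb1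
  have hm := hm κ κ' Y hκ hκ' hle hY hY1
  have t1 : Tendsto (fun n => |b⁻¹ - (bn n)⁻¹|) atTop (𝓝 0) := by
    have h1 := (hbn.inv₀ hb0.ne').const_sub b⁻¹
    rw [sub_self] at h1
    simpa using h1.abs
  have t2 : Tendsto (fun n => |(b ^ 2)⁻¹ - (bn n ^ 2)⁻¹|) atTop (𝓝 0) := by
    have h1 := ((hbn.pow 2).inv₀ (pow_ne_zero 2 hb0.ne')).const_sub (b ^ 2)⁻¹
    rw [sub_self] at h1
    simpa using h1.abs
  have t3 : Tendsto (fun n => |c₁| * C * |b⁻¹ - (bn n)⁻¹| +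
      |c₂| * (C ^ 2 + v * C) * |(b ^ 2)⁻¹ - (bn n ^ 2)⁻¹|) atTop (𝓝 0) := by
    have := (t1.const_mul (|c₁| * C)).add (t2.const_mul (|c₂| * (C ^ 2 + v * C)))
    simpa using this
  have h3 := t3.eventually (gt_mem_nhds (show (0 : ℝ) < δ / 4 by positivity))
  have h4 : ∀ᶠ n in atTop, b / 2 < bn n := hbn.eventually (lt_mem_nhds (by linarith))
  have h4' : ∀ᶠ n in atTop, b₀ < bn n := hbn.eventually (lt_mem_nhds (by
    have := abs_nonneg b₁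
    linarith))
  have h5 := (hm.abs).eventually (gt_mem_nhds (show |(0 : ℝ)| < δ / 2 by rw [abs_zero]; positivity))
  filter_upwards [h3, h4, h4', h5] with n hn3 hn4 hn4' hn5
  have hbnp : 0 < bn n := hb₀.trans hn4'
  have est : ∀ (ρ : ∀ n, Ω n → ℕ), S.St T R ρ → ∀ ω,
      |mn v c₁ c₂ b (S.Va ρ n ω) (S.Ta ρ n ω) - (O (S.W n ω) (bn n) (S.Ta ρ n ω) - c₀)| ≤
        8 * C2 / b ^ 3 + δ / 4 := by
    intro ρ hρ ω
    obtain ⟨hp, hτ⟩ := hC n ω (ρ n ω) (hρ.bef n ω)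
    have hτ0 : 0 ≤ S.Ta ρ n ω := by
      change 0 ≤ S.τ n _ ω
      rw [← hS.zero n ω]; exact hS.mono n ω (Nat.zero_le _)
    have hW : |S.Va ρ n ω| ≤ C := hp _ hτ0 le_rfl
    have h6 := hexp (S.W n ω) (bn n) (S.Ta ρ n ω) hτ0 hτ
      ((hO.cont n ω).mono Icc_subset_Ici_self) (fun s hs => hp s hs.1 hs.2) hn4'.le
    have h7 := mn_sub (c₁ := c₁) (c₂ := c₂) b (bn n) hv hW hτ0 hτ
    have h8 : C2 / (bn n) ^ 3 ≤ 8 * C2 / b ^ 3 := by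
      have h9 : (b / 2) ^ 3 ≤ (bn n) ^ 3 := pow_le_pow_left₀ (by positivity) hn4.le 3
      have h10 : 0 < (b / 2) ^ 3 := by positivity
      calc C2 / (bn n) ^ 3 ≤ C2 / (b / 2) ^ 3 := div_le_div_of_nonneg_left hC2 h10 h9
        _ = 8 * C2 / b ^ 3 := by field_simp; norm_num
    have h11 : mn v c₁ c₂ b (S.Va ρ n ω) (S.Ta ρ n ω) - (O (S.W n ω) (bn n) (S.Ta ρ n ω) - c₀) =
        (mn v c₁ c₂ b (S.Va ρ n ω) (S.Ta ρ n ω) - mn v c₁ c₂ (bn n) (S.Va ρ n ω) (S.Ta ρ n ω)) -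
        (O (S.W n ω) (bn n) (S.Ta ρ n ω) - (c₀ + c₁ * S.W n ω (S.Ta ρ n ω) / bn n +
          c₂ * (S.W n ω (S.Ta ρ n ω) ^ 2 - v * S.Ta ρ n ω) / bn n ^ 2)) := by
      have : S.Va ρ n ω = S.W n ω (S.Ta ρ n ω) := rfl
      rw [this]
      unfold mn
      ring
    rw [h11]
    refine (abs_sub _ _).trans ?_
    linarith
  have mE : ∀ (ρ : ∀ n, Ω n → ℕ), (∀ n, IsStop (S.F n) (ρ n)) →
      Measurable fun ω => mn v c₁ c₂ b (S.Va ρ n ω) (S.Ta ρ n ω) := by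
    intro ρ hρ
    have m1 := (hS.pastV hρ n).measurable (hρ n)
    have m2 := (hS.pastT hρ n).measurable (hρ n)
    unfold mn
    fun_prop
  have mY : Measurable (Y n) := (hY n).measurable (hκ n)
  obtain ⟨G, hG⟩ : ∃ G : Ω n → ℝ, G = fun ω => (mn v c₁ c₂ b (S.Va κ' n ω) (S.Ta κ' n ω) -
    mn v c₁ c₂ b (S.Va κ n ω) (S.Ta κ n ω)) * Y n ω := ⟨_, rfl⟩
  obtain ⟨H, hH⟩ : ∃ H : Ω n → ℝ, H = fun ω => (O (S.W n ω) (bn n) (S.Ta κ' n ω) -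
    O (S.W n ω) (bn n) (S.Ta κ n ω)) * Y n ω := ⟨_, rfl⟩
  have mH : Measurable H := by
    rw [hH]
    exact ((O_meas hO hκ'.stop (bn n) n).sub (O_meas hO hκ (bn n) n)).mul mY
  have mG : Measurable G := by
    rw [hG]
    exact ((mE κ' hκ'.stop).sub (mE κ hκ)).mul mY
  have hd : ∀ ω, ‖G ω - H ω‖ ≤ 16 * C2 / b ^ 3 + δ / 2 := by
    intro ω
    have a1 := est κ' hκ' ω
    have a2 := est κ hκs ω
    have e1 : G ω - H ω = ((mn v c₁ c₂ b (S.Va κ' n ω) (S.Ta κ' n ω) -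
        (O (S.W n ω) (bn n) (S.Ta κ' n ω) - c₀)) - (mn v c₁ c₂ b (S.Va κ n ω) (S.Ta κ n ω) -
        (O (S.W n ω) (bn n) (S.Ta κ n ω) - c₀))) * Y n ω := by rw [hG, hH]; ring
    rw [e1, Real.norm_eq_abs, abs_mul]
    refine (mul_le_of_le_one_right (abs_nonneg _) (hY1 n ω)).trans ?_
    refine (abs_sub _ _).trans ?_
    have : 16 * C2 / b ^ 3 = 8 * C2 / b ^ 3 + 8 * C2 / b ^ 3 := by ring
    linarith
  -- boundedness of `G`
  have bE : ∀ (ρ : ∀ n, Ω n → ℕ), S.St T R ρ → ∀ ω,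
      |mn v c₁ c₂ b (S.Va ρ n ω) (S.Ta ρ n ω)| ≤ |c₁| * C / b + |c₂| * (C ^ 2 + v * C) / b ^ 2 := by
    intro ρ hρ ω
    obtain ⟨hp, hτ⟩ := hC n ω (ρ n ω) (hρ.bef n ω)
    have hτ0 : 0 ≤ S.Ta ρ n ω := by
      change 0 ≤ S.τ n _ ω
      rw [← hS.zero n ω]; exact hS.mono n ω (Nat.zero_le _)
    have hW : |S.Va ρ n ω| ≤ C := hp _ hτ0 le_rfl
    have hvt : v * S.Ta ρ n ω ≤ v * C := mul_le_mul_of_nonneg_left hτ hv
    have hvt0 : 0 ≤ v * S.Ta ρ n ω := mul_nonneg hv hτ0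
    have h1 : S.Va ρ n ω ^ 2 ≤ C ^ 2 := by
      rw [← sq_abs (S.Va ρ n ω)]; exact pow_le_pow_left₀ (abs_nonneg _) hW 2
    have h2 : |S.Va ρ n ω ^ 2 - v * S.Ta ρ n ω| ≤ C ^ 2 + v * C := by
      have := sq_nonneg (S.Va ρ n ω)
      have := sq_nonneg C
      rw [abs_le]
      constructor <;> linarith
    unfold mn
    refine (abs_add_le _ _).trans (add_le_add ?_ ?_)
    · rw [abs_div, abs_mul, abs_of_pos hb0]
      gcongr
    · rw [abs_div, abs_mul, abs_of_pos (pow_pos hb0 2)]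
      gcongr
  have bG : ∀ ω, ‖G ω‖ ≤ 2 * (|c₁| * C / b + |c₂| * (C ^ 2 + v * C) / b ^ 2) := by
    intro ω
    rw [hG, Real.norm_eq_abs, abs_mul]
    refine (mul_le_of_le_one_right (abs_nonneg _) (hY1 n ω)).trans ?_
    refine (abs_sub _ _).trans ?_
    have a1 := bE κ' hκ' ω
    have a2 := bE κ hκs ω
    linarith
  have iG : Integrable G (P n) := Integrable.of_bound mG.aestronglyMeasurable _
    (Eventually.of_forall bG)
  have iD : Integrable (fun ω => G ω - H ω) (P n) :=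
    Integrable.of_bound (mG.sub mH).aestronglyMeasurable _ (Eventually.of_forall hd)
  have iH : Integrable H (P n) := by
    have := iG.sub iD
    refine this.congr (Eventually.of_forall fun ω => ?_)
    simp
  have e2 : ∫ ω, G ω ∂(P n) = ∫ ω, H ω ∂(P n) + ∫ ω, (G ω - H ω) ∂(P n) := by
    rw [← integral_add iH iD]
    congr 1
    funext ω
    ring
  have e3 : |∫ ω, (G ω - H ω) ∂(P n)| ≤ 16 * C2 / b ^ 3 + δ / 2 := by
    have := norm_integral_le_of_norm_le_const (μ := P n) (Eventually.of_forall hd)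
    simpa using this
  have e5 : ∫ ω, (mn v c₁ c₂ b (S.Va κ' n ω) (S.Ta κ' n ω) -
    mn v c₁ c₂ b (S.Va κ n ω) (S.Ta κ n ω)) * Y n ω ∂(P n) = ∫ ω, G ω ∂(P n) := by rw [hG]
  have e6 : ∫ ω, (O (S.W n ω) (bn n) (S.Ta κ' n ω) -
    O (S.W n ω) (bn n) (S.Ta κ n ω)) * Y n ω ∂(P n) = ∫ ω, H ω ∂(P n) := by rw [hH]
  rw [e6] at hn5
  rw [e5, e2]
  refine (abs_add_le _ _).trans ?_
  linarith

/-- **The observable gives the approximate martingale problem.** -/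
theorem ObsG.am (hv : 0 ≤ v) (hE : Expn O v c₀ c₁ c₂) (hS : S.Ok) (hO : ObsG S O P) :
    AMk S v P := by
  have hc1 : 0 < |c₁| := abs_pos.2 hE.h1
  have hc2 : 0 < |c₂| := abs_pos.2 hE.h2
  have bQ : ∀ {T R : ℝ} {ρ : ∀ n, Ω n → ℕ}, S.St T R ρ →
      Bdd (fun n ω => S.Va ρ n ω ^ 2 - v * S.Ta ρ n ω) := by
    intro T R ρ hρ
    have b1 := hS.bddV hρ
    have b2 := hS.bddT hρ
    have b3 := (b1.mul b1).sub (b2.const_mul v)
    have e : (fun n ω => S.Va ρ n ω ^ 2 - v * S.Ta ρ n ω) =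
        fun n ω => S.Va ρ n ω * S.Va ρ n ω - v * S.Ta ρ n ω := by
      funext n ω; ring
    rw [e]
    exact b3
  have m1 : ∀ (T R : ℝ) (κ κ' : ∀ n, Ω n → ℕ) (Y : ∀ n, Ω n → ℝ), (∀ n, IsStop (S.F n) (κ n)) →
    S.St T R κ' → (∀ n ω, κ n ω ≤ κ' n ω) → (∀ n, Past (S.F n) (κ n) (Y n)) →
    (∀ n ω, |Y n ω| ≤ 1) →
    Tendsto (fun n => ∫ ω, (S.Va κ' n ω - S.Va κ n ω) * Y n ω ∂(P n)) atTop (𝓝 0) := by
    intro T R κ κ' Y hκ hκ' hle hY hY1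
    obtain ⟨C, b₀, hC, hb₀, hmain⟩ := main_diff (P := P) hv hE hS hO
      (T := max T 0) (R := max R 1) (le_max_right _ _) (by positivity)
    have hκ'' : S.St (max T 0) (max R 1) κ' := hκ'.mono (le_max_left _ _) (le_max_left _ _)
    have hκs := hκ''.of_le hκ hle
    have bY : Bdd Y := ⟨fun n => (hY n).measurable (hκ n), 1, hY1⟩
    have bV := hS.bddV hκs
    have bV' := hS.bddV hκ''
    have bQ1 := ((bQ hκ'').sub (bQ hκs)).mul bY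
    have bV1 := (bV'.sub bV).mul bY
    obtain ⟨D, hD0, hD⟩ := bQ1.pos
    rw [Metric.tendsto_atTop]
    intro ε hε
    obtain ⟨b, hb⟩ : ∃ b, b = b₀ + 1 + 4 * (C + |c₂| * D) / (|c₁| * ε) := ⟨_, rfl⟩
    have hq : 0 ≤ 4 * (C + |c₂| * D) / (|c₁| * ε) := by positivity
    have hb1 : 1 ≤ b := by linarith
    have hb0 : 0 < b := by linarith
    have hbb : b₀ ≤ b := by linarith
    have h1 := hmain b hbb κ κ' Y hκ hκ'' hle hY hY1 (|c₁| * ε / (4 * b)) (by positivity)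
    obtain ⟨N, hN⟩ := eventually_atTop.1 h1
    refine ⟨N, fun n hn => ?_⟩
    have h2 := hN n hn
    have e1 : ∫ ω, (mn v c₁ c₂ b (S.Va κ' n ω) (S.Ta κ' n ω) -
        mn v c₁ c₂ b (S.Va κ n ω) (S.Ta κ n ω)) * Y n ω ∂(P n) =
        c₁ / b * ∫ ω, (S.Va κ' n ω - S.Va κ n ω) * Y n ω ∂(P n) +
        c₂ / b ^ 2 * ∫ ω, ((S.Va κ' n ω ^ 2 - v * S.Ta κ' n ω) -
          (S.Va κ n ω ^ 2 - v * S.Ta κ n ω)) * Y n ω ∂(P n) := by
      rw [← integral_const_mul, ← integral_const_mul, ← integral_add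
        ((bV1.integrable n).const_mul _) ((bQ1.integrable n).const_mul _)]
      congr 1
      funext ω
      unfold mn
      ring
    rw [e1] at h2
    have h3 : |∫ ω, ((S.Va κ' n ω ^ 2 - v * S.Ta κ' n ω) -
          (S.Va κ n ω ^ 2 - v * S.Ta κ n ω)) * Y n ω ∂(P n)| ≤ D := by
      have := norm_integral_le_of_norm_le_const (μ := P n) (Eventually.of_forall (hD n))
      simpa using this
    obtain ⟨I1, hI1⟩ : ∃ I1, I1 = ∫ ω, (S.Va κ' n ω - S.Va κ n ω) * Y n ω ∂(P n) := ⟨_, rfl⟩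
    obtain ⟨I2, hI2⟩ : ∃ I2, I2 = ∫ ω, ((S.Va κ' n ω ^ 2 - v * S.Ta κ' n ω) -
          (S.Va κ n ω ^ 2 - v * S.Ta κ n ω)) * Y n ω ∂(P n) := ⟨_, rfl⟩
    rw [← hI1, ← hI2] at h2
    rw [← hI2] at h3
    rw [Real.dist_eq, sub_zero, ← hI1]
    have h4 : |c₁ / b * I1| ≤ C / b ^ 3 + |c₁| * ε / (4 * b) + |c₂| / b ^ 2 * D := by
      have e : c₁ / b * I1 = (c₁ / b * I1 + c₂ / b ^ 2 * I2) - c₂ / b ^ 2 * I2 := by ring
      rw [e]
      refine (abs_sub _ _).trans ?_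
      have h5 : |c₂ / b ^ 2 * I2| ≤ |c₂| / b ^ 2 * D := by
        rw [abs_mul, abs_div, abs_of_pos (pow_pos hb0 2)]
        gcongr
      linarith
    have h5 : |I1| = b / |c₁| * |c₁ / b * I1| := by
      rw [abs_mul, abs_div, abs_of_pos hb0]
      field_simp
    rw [h5]
    have h6 : b / |c₁| * (C / b ^ 3 + |c₁| * ε / (4 * b) + |c₂| / b ^ 2 * D) =
        (C / b + |c₂| * D) / (|c₁| * b) + ε / 4 := by
      field_simp
      ring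
    have h7 : C / b ≤ C := div_le_self hC hb1
    have h8 : (C / b + |c₂| * D) / (|c₁| * b) ≤ ε / 4 := by
      rw [div_le_iff₀ (by positivity)]
      have h9 : 4 * (C + |c₂| * D) / (|c₁| * ε) ≤ b := by linarith
      rw [div_le_iff₀ (by positivity)] at h9
      linarith
    calc b / |c₁| * |c₁ / b * I1| ≤ b / |c₁| * (C / b ^ 3 + |c₁| * ε / (4 * b) +
          |c₂| / b ^ 2 * D) := mul_le_mul_of_nonneg_left h4 (by positivity)
      _ = (C / b + |c₂| * D) / (|c₁| * b) + ε / 4 := h6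
      _ < ε := by linarith
  refine ⟨m1, ?_⟩
  intro T R κ κ' Y hκ hκ' hle hY hY1
  obtain ⟨C, b₀, hC, hb₀, hmain⟩ := main_diff (P := P) hv hE hS hO
    (T := max T 0) (R := max R 1) (le_max_right _ _) (by positivity)
  have hκ'' : S.St (max T 0) (max R 1) κ' := hκ'.mono (le_max_left _ _) (le_max_left _ _)
  have hκs := hκ''.of_le hκ hle
  have bY : Bdd Y := ⟨fun n => (hY n).measurable (hκ n), 1, hY1⟩
  have bV := hS.bddV hκs
  have bV' := hS.bddV hκ''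
  have bQ1 := ((bQ hκ'').sub (bQ hκs)).mul bY
  have bV1 := (bV'.sub bV).mul bY
  rw [Metric.tendsto_atTop]
  intro ε hε
  obtain ⟨b, hb⟩ : ∃ b, b = b₀ + 1 + 4 * C / (|c₂| * ε) := ⟨_, rfl⟩
  have hq : 0 ≤ 4 * C / (|c₂| * ε) := by positivity
  have hb1 : 1 ≤ b := by linarith
  have hb0 : 0 < b := by linarith
  have hbb : b₀ ≤ b := by linarith
  have h1 := hmain b hbb κ κ' Y hκ hκ'' hle hY hY1 (|c₂| * ε / (4 * b ^ 2)) (by positivity)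
  have hm := m1 _ _ κ κ' Y hκ hκ'' hle hY hY1
  have h1' := (hm.abs).eventually (gt_mem_nhds
    (show |(0 : ℝ)| < |c₂| * ε / (4 * |c₁| * b) by rw [abs_zero]; positivity))
  obtain ⟨N, hN⟩ := eventually_atTop.1 (h1.and h1')
  refine ⟨N, fun n hn => ?_⟩
  obtain ⟨h2, h2'⟩ := hN n hn
  have e1 : ∫ ω, (mn v c₁ c₂ b (S.Va κ' n ω) (S.Ta κ' n ω) -
      mn v c₁ c₂ b (S.Va κ n ω) (S.Ta κ n ω)) * Y n ω ∂(P n) =
      c₁ / b * ∫ ω, (S.Va κ' n ω - S.Va κ n ω) * Y n ω ∂(P n) +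
      c₂ / b ^ 2 * ∫ ω, ((S.Va κ' n ω ^ 2 - v * S.Ta κ' n ω) -
        (S.Va κ n ω ^ 2 - v * S.Ta κ n ω)) * Y n ω ∂(P n) := by
    rw [← integral_const_mul, ← integral_const_mul, ← integral_add
      ((bV1.integrable n).const_mul _) ((bQ1.integrable n).const_mul _)]
    congr 1
    funext ω
    unfold mn
    ring
  rw [e1] at h2
  obtain ⟨I1, hI1⟩ : ∃ I1, I1 = ∫ ω, (S.Va κ' n ω - S.Va κ n ω) * Y n ω ∂(P n) := ⟨_, rfl⟩
  obtain ⟨I2, hI2⟩ : ∃ I2, I2 = ∫ ω, ((S.Va κ' n ω ^ 2 - v * S.Ta κ' n ω) -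
        (S.Va κ n ω ^ 2 - v * S.Ta κ n ω)) * Y n ω ∂(P n) := ⟨_, rfl⟩
  rw [← hI1, ← hI2] at h2
  rw [← hI1] at h2'
  rw [Real.dist_eq, sub_zero, ← hI2]
  have h4 : |c₂ / b ^ 2 * I2| ≤ C / b ^ 3 + |c₂| * ε / (4 * b ^ 2) +
      |c₁| / b * (|c₂| * ε / (4 * |c₁| * b)) := by
    have e : c₂ / b ^ 2 * I2 = (c₁ / b * I1 + c₂ / b ^ 2 * I2) - c₁ / b * I1 := by ring
    rw [e]
    refine (abs_sub _ _).trans ?_
    have h5 : |c₁ / b * I1| ≤ |c₁| / b * (|c₂| * ε / (4 * |c₁| * b)) := by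
      rw [abs_mul, abs_div, abs_of_pos hb0]
      gcongr
    linarith
  have h5 : |I2| = b ^ 2 / |c₂| * |c₂ / b ^ 2 * I2| := by
    rw [abs_mul, abs_div, abs_of_pos (pow_pos hb0 2)]
    field_simp
  rw [h5]
  have h6 : b ^ 2 / |c₂| * (C / b ^ 3 + |c₂| * ε / (4 * b ^ 2) +
      |c₁| / b * (|c₂| * ε / (4 * |c₁| * b))) = C / (|c₂| * b) + ε / 4 + ε / 4 := by
    field_simp
  have h8 : C / (|c₂| * b) ≤ ε / 4 := by
    rw [div_le_iff₀ (by positivity)]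
    have h9 : 4 * C / (|c₂| * ε) ≤ b := by linarith
    rw [div_le_iff₀ (by positivity)] at h9
    linarith
  calc b ^ 2 / |c₂| * |c₂ / b ^ 2 * I2| ≤ b ^ 2 / |c₂| * (C / b ^ 3 + |c₂| * ε / (4 * b ^ 2) +
        |c₁| / b * (|c₂| * ε / (4 * |c₁| * b))) := mul_le_mul_of_nonneg_left h4 (by positivity)
    _ = C / (|c₂| * b) + ε / 4 + ε / 4 := h6
    _ < ε := by linarith

end

end Vale.Agent.P167.H411
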