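import Vale.Agent.P167.H411.Cardy
import Vale.Agent.P167.M1.Fin

/-!
# P167, block DRV6: finite explorations

`AsymB`: a sequence of finite explorations (`M1.Expl` of P153: finite set `C` of outcomes with the
uniform law, path `r`, number of steps `K`, times `c`, driver `w`) with small steps which leaves all
compact sets before the last step.  `cex X φ h k`: conditional expectation of `φ` given the first `k`
steps.  `drv_weak`: if for every large `b` and every `ε` there is a function `φ` of the outcome with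
`|cex φ h k - O (W h) b (c h k)| ≤ ε` before the exit, then the drivers converge to `√v B`.
-/

set_option linter.unusedVariables false
set_option linter.unusedSectionVars false
set_option warn.classDefReducibility false

namespace Vale.Agent.P167.H411

open MeasureTheory ProbabilityTheory Filter Topology Set Complex
open Vale.Agent.P153.M1
open Vale.Agent.P153.R2 (Ex)
open scoped NNReal ENNReal

/-- A sequence of finite explorations with small steps, which leave all compact sets before the last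
step. -/
structure AsymB {A B : Type*} (X : ℕ → Expl A B) : Prop where
  wf : ∀ n, (X n).WF
  small : ∀ T R : ℝ, ∃ e : ℕ → ℝ, Tendsto e atTop (𝓝 0) ∧ ∀ᶠ n in atTop, ∀ h ∈ (X n).C,
    ∀ k, k + 1 < (X n).K h → (∀ j ≤ k, (X n).c h j ≤ T ∧ |(X n).V h j| ≤ R) →
    (X n).c h (k + 1) - (X n).c h k ≤ e n ∧ ∀ u : ℝ≥0, (X n).c h k ≤ u →
      (u : ℝ) ≤ (X n).c h (k + 1) → |(X n).w h u - (X n).V h k| ≤ e n
  far : ∀ T R : ℝ, ∀ᶠ n in atTop, ∀ h ∈ (X n).C, ∃ k < (X n).K h,
    T < (X n).c h k ∨ R < |(X n).V h k|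

section

variable {A B : Type*} {X : ℕ → Expl A B}

namespace AsymB

variable (hX : AsymB X)
include hX

/-- For large `n` the exit is before the last step. -/
theorem lt_K {T R : ℝ} : ∀ᶠ n in atTop, ∀ (h : (X n).C) (k : ℕ), (sysX X).Bef T R n h k →
    k < (X n).K h := by
  filter_upwards [hX.far T R] with n hn h k hk
  obtain ⟨j, hj, h1⟩ := hn h h.2
  by_contra hc
  push Not at hc
  obtain ⟨h2, h3⟩ := hk j (hj.trans_le hc)
  have e1 : (sysX X).τ n j h = (X n).c h j := Expl.tt_le hj.le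
  have e2 : (sysX X).V n j h = (X n).V h j := Expl.W_tt_le hj.le
  rw [e1] at h2
  rw [e2] at h3
  rcases h1 with h1 | h1 <;> linarith

theorem ok : (sysX X).Ok where
  adV := fun n k => Expl.meas_fil fun h h' ha => ((hX.wf n).agree h.2 h'.2 ha).2
  adτ := fun n k => Expl.meas_fil fun h h' ha => ((hX.wf n).agree h.2 h'.2 ha).1
  measW := fun n u => measurable_from_top
  zero := fun n h => by
    change (X n).tt h 0 = 0
    rw [Expl.tt_le (Nat.zero_le _)]
    exact (hX.wf n).c0 h h.2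
  W0 := fun n h => by
    change (X n).w h (Real.toNNReal 0) = 0
    rw [Real.toNNReal_zero]
    exact (hX.wf n).w0 h h.2
  mono := fun n h => (hX.wf n).tt_mono h.2
  unb := fun n h T => by
    obtain ⟨m, hm⟩ := exists_nat_gt T
    refine ⟨(X n).K h + 1 + m, ?_⟩
    change T < (X n).tt h _
    rw [Expl.tt_gt (by omega)]
    have := (hX.wf n).cK_nonneg h.2
    push_cast
    linarith
  small := by
    intro T R
    obtain ⟨e, he, hsm⟩ := hX.small T R
    have hlt := hX.lt_K (T := T) (R := R)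
    obtain ⟨N, hN⟩ := eventually_atTop.1 (hsm.and hlt)
    -- a bound for a single `n`
    have hone : ∀ n, ∃ b : ℝ, ∀ (h : (X n).C) (k : ℕ),
        (sysX X).τ n (k + 1) h - (sysX X).τ n k h ≤ b ∧
        ∀ u ∈ Icc ((sysX X).τ n k h) ((sysX X).τ n (k + 1) h),
          |(sysX X).W n h u - (sysX X).W n h ((sysX X).τ n k h)| ≤ b := by
      intro n
      have hb : ∀ h : (X n).C, ∃ b : ℝ, ∀ k : ℕ,
          (sysX X).τ n (k + 1) h - (sysX X).τ n k h ≤ b ∧
          ∀ u ∈ Icc ((sysX X).τ n k h) ((sysX X).τ n (k + 1) h),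
            |(sysX X).W n h u - (sysX X).W n h ((sysX X).τ n k h)| ≤ b := by
        intro h
        have hwf := hX.wf n
        obtain ⟨M, hM⟩ := (isCompact_Icc (a := (0 : ℝ)) (b := (X n).c h ((X n).K h))).bddAbove_image
          ((W_cont (X := X) n h).mono Icc_subset_Ici_self).abs
        have hM' : ∀ u : ℝ, 0 ≤ u → |(X n).W h u| ≤ M := by
          intro u hu
          rcases le_total u ((X n).c h ((X n).K h)) with h1 | h1
          · exact hM (mem_image_of_mem _ ⟨hu, h1⟩)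
          · rw [hwf.W_ge h.2 h1, ← hwf.W_ge h.2 le_rfl]
            exact hM (mem_image_of_mem _ ⟨hwf.cK_nonneg h.2, le_rfl⟩)
        have hM0 : 0 ≤ M := (abs_nonneg _).trans (hM' 0 le_rfl)
        have hc0 := hwf.cK_nonneg h.2
        refine ⟨(X n).c h ((X n).K h) + 1 + 2 * M, fun k => ⟨?_, fun u hu => ?_⟩⟩
        · change (X n).tt h (k + 1) - (X n).tt h k ≤ _
          have h1 := hwf.tt_nonneg h.2 k
          rcases lt_trichotomy k ((X n).K h) with hk | hk | hk
          · have h2 := hwf.tt_mono h.2 (show k + 1 ≤ (X n).K h from hk)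
            rw [Expl.tt_le (le_refl ((X n).K h))] at h2
            linarith
          · rw [Expl.tt_le hk.le, Expl.tt_gt (by omega), hk]
            push_cast
            linarith
          · rw [Expl.tt_gt hk, Expl.tt_gt (by omega)]
            push_cast
            linarith
        · have h1 : 0 ≤ (X n).tt h k := hwf.tt_nonneg h.2 k
          have h2 : 0 ≤ u := h1.trans hu.1
          refine (abs_sub _ _).trans ?_
          have h3 := hM' u h2
          have h4 := hM' _ h1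
          change |(X n).W h u| + |(X n).W h ((X n).tt h k)| ≤ _
          linarith
      choose b hb' using hb
      have := (hX.wf n).fin.fintype
      refine ⟨∑ h : (X n).C, |b h|, fun h k => ?_⟩
      have h1 : b h ≤ ∑ h : (X n).C, |b h| := (le_abs_self _).trans
        (Finset.single_le_sum (f := fun h => |b h|) (fun i _ => abs_nonneg _) (Finset.mem_univ h))
      exact ⟨(hb' h k).1.trans h1, fun u hu => ((hb' h k).2 u hu).trans h1⟩
    choose b hb using hone
    refine ⟨fun n => if n < N then b n else e n, ?_, ?_⟩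
    · refine he.congr' ?_
      filter_upwards [eventually_ge_atTop N] with n hn
      rw [if_neg (by omega)]
    · intro n h k hk
      dsimp only
      split_ifs with hn
      · exact hb n h k
      · obtain ⟨h1, h2⟩ := hN n (not_lt.1 hn)
        have hkK := h2 h (k + 1) hk
        have e1 : (sysX X).τ n (k + 1) h = (X n).c h (k + 1) := Expl.tt_le hkK.le
        have e2 : (sysX X).τ n k h = (X n).c h k := Expl.tt_le (by omega)
        have e3 : (sysX X).W n h ((X n).c h k) = (X n).V h k := rfl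
        obtain ⟨h3, h4⟩ := h1 h h.2 k hkK (fun j hj => by
          obtain ⟨h5, h6⟩ := hk j (Nat.lt_succ_of_le hj)
          have e4 : (sysX X).τ n j h = (X n).c h j := Expl.tt_le (by omega)
          have e5 : (sysX X).V n j h = (X n).V h j := Expl.W_tt_le (by omega)
          rw [e4] at h5
          rw [e5] at h6
          exact ⟨h5, h6⟩)
        rw [e1, e2, e3]
        refine ⟨h3, fun u hu => ?_⟩
        have hc0 : 0 ≤ (X n).c h k := by
          have := (hX.wf n).tt_nonneg h.2 k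
          rwa [Expl.tt_le (by omega)] at this
        have hu0 : 0 ≤ u := hc0.trans hu.1
        exact h4 u.toNNReal (by rw [Real.coe_toNNReal _ hu0]; exact hu.1)
          (by rw [Real.coe_toNNReal _ hu0]; exact hu.2)

/-- The laws. -/
noncomputable def prX (n : ℕ) : Measure (X n).C := (X n).pr (hX.wf n).fin (hX.wf n).ne

theorem prX_prob (n : ℕ) : IsProbabilityMeasure (hX.prX n) :=
  Expl.pr_prob (hX.wf n).fin (hX.wf n).ne

theorem integral_prX (n : ℕ) (f : A → ℝ) : ∫ h, f h ∂(hX.prX n) = Ex (X n).C f :=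
  Expl.integral_pr (hX.wf n).fin (hX.wf n).ne f

end AsymB

/-! ### Conditional expectations along an exploration -/

/-- The outcomes which agree with `h` up to step `k`. -/
def cyl (X : Expl A B) (h : A) (k : ℕ) : Set A := {h' | h' ∈ X.C ∧ ∀ j ≤ k, X.r h' j = X.r h j}

/-- The conditional expectation of `φ` given the first `k` steps. -/
noncomputable def cex (X : Expl A B) (φ : A → ℝ) (h : A) (k : ℕ) : ℝ := Ex (cyl X h k) φ

theorem mem_cyl {X : Expl A B} {h : A} (hh : h ∈ X.C) (k : ℕ) : h ∈ cyl X h k :=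
  ⟨hh, fun _ _ => rfl⟩

theorem cyl_sub (X : Expl A B) (h : A) (k : ℕ) : cyl X h k ⊆ X.C := fun _ h' => h'.1

theorem cyl_stop {X : Expl A B} {κ : A → ℕ} (hκ : X.StopIx κ) {h h' : A} (hh : h ∈ X.C)
    (h1 : h' ∈ cyl X h (κ h)) : cyl X h' (κ h') = cyl X h (κ h) := by
  have e : κ h' = κ h := hκ h hh h' h1.1 h1.2
  rw [e]
  ext a
  constructor
  · intro ha
    exact ⟨ha.1, fun j hj => (ha.2 j hj).trans (h1.2 j hj)⟩
  · intro ha
    exact ⟨ha.1, fun j hj => (ha.2 j hj).trans (h1.2 j hj).symm⟩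

/-- Sum of a conditional expectation times a function of the past. -/
theorem sum_cex {X : Expl A B} (hf : X.C.Finite) {κ : A → ℕ} (hκ : X.StopIx κ) {Y : A → ℝ}
    (hY : X.StopMeas κ Y) (φ : A → ℝ) :
    ∑ h ∈ hf.toFinset, cex X φ h (κ h) * Y h = ∑ h ∈ hf.toFinset, φ h * Y h := by
  classical
  have hfc : ∀ h, (cyl X h (κ h)).Finite := fun h => hf.subset (cyl_sub X h _)
  -- write the conditional expectation as a sum over the outcomes
  have e1 : ∀ h ∈ hf.toFinset, cex X φ h (κ h) * Y h =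
      ∑ a ∈ hf.toFinset, if a ∈ cyl X h (κ h) then φ a * Y a / ((cyl X h (κ h)).ncard : ℝ) else 0 := by
    intro h hh
    have hh' : h ∈ X.C := hf.mem_toFinset.1 hh
    have e2 : ∑ᶠ a ∈ cyl X h (κ h), φ a = ∑ a ∈ (hfc h).toFinset, φ a := by
      rw [finsum_mem_eq_finite_toFinset_sum _ (hfc h)]
    rw [← Finset.sum_filter, cex, Ex, e2, div_mul_eq_mul_div, Finset.sum_mul, Finset.sum_div]
    have e3 : (hfc h).toFinset = hf.toFinset.filter (fun a => a ∈ cyl X h (κ h)) := by
      ext a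
      simp only [Finite.mem_toFinset, Finset.mem_filter]
      exact ⟨fun ha => ⟨ha.1, ha⟩, fun ha => ha.2⟩
    rw [e3]
    refine Finset.sum_congr rfl fun a ha => ?_
    rw [Finset.mem_filter] at ha
    rw [hY h hh' a ha.2.1 ha.2.2]
  rw [Finset.sum_congr rfl e1, Finset.sum_comm]
  refine Finset.sum_congr rfl fun a ha => ?_
  have ha' : a ∈ X.C := hf.mem_toFinset.1 ha
  have e4 : ∀ h ∈ hf.toFinset, (if a ∈ cyl X h (κ h) then
      φ a * Y a / ((cyl X h (κ h)).ncard : ℝ) else 0) =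
      if h ∈ cyl X a (κ a) then φ a * Y a / ((cyl X a (κ a)).ncard : ℝ) else 0 := by
    intro h hh
    have hh' : h ∈ X.C := hf.mem_toFinset.1 hh
    by_cases h1 : a ∈ cyl X h (κ h)
    · have e5 := cyl_stop hκ hh' h1
      have h2 : h ∈ cyl X a (κ a) := by rw [e5]; exact mem_cyl hh' _
      rw [if_pos h1, if_pos h2, e5]
    · have h2 : h ∉ cyl X a (κ a) := by
        intro h3
        have e5 := cyl_stop hκ ha' h3
        exact h1 (by rw [e5]; exact mem_cyl ha' _)
      rw [if_neg h1, if_neg h2]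
  rw [Finset.sum_congr rfl e4, ← Finset.sum_filter, Finset.sum_const, nsmul_eq_mul]
  have e6 : ((hf.toFinset.filter (fun h => h ∈ cyl X a (κ a))).card : ℝ) =
      ((cyl X a (κ a)).ncard : ℝ) := by
    have e7 : hf.toFinset.filter (fun h => h ∈ cyl X a (κ a)) = (hfc a).toFinset := by
      ext b
      simp only [Finite.mem_toFinset, Finset.mem_filter]
      exact ⟨fun hb => hb.2, fun hb => ⟨hb.1, hb⟩⟩
    rw [e7, ncard_eq_toFinset_card _ (hfc a)]
  have hpos : (0 : ℝ) < ((cyl X a (κ a)).ncard : ℝ) := by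
    have := (ncard_pos (hfc a)).2 ⟨a, mem_cyl ha' _⟩
    exact_mod_cast this
  rw [e6]
  field_simp

theorem ex_eq_sum {X : Expl A B} (hf : X.C.Finite) (f : A → ℝ) :
    Ex X.C f = (∑ h ∈ hf.toFinset, f h) / (X.C.ncard : ℝ) := by
  rw [Ex, finsum_mem_eq_finite_toFinset_sum _ hf]

/-- **Optional stopping for conditional expectations.** -/
theorem ex_cex {X : Expl A B} (hf : X.C.Finite) {κ κ' : A → ℕ} (hκ : X.StopIx κ)
    (hκ' : X.StopIx κ') (hle : ∀ h ∈ X.C, κ h ≤ κ' h) {Y : A → ℝ}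
    (hY : X.StopMeas κ Y) (φ : A → ℝ) :
    Ex X.C (fun h => (cex X φ h (κ' h) - cex X φ h (κ h)) * Y h) = 0 := by
  have hY' : X.StopMeas κ' Y := fun h hh h' hh' ha =>
    hY h hh h' hh' fun j hj => ha j (hj.trans (hle h hh))
  rw [ex_eq_sum hf]
  have e : ∑ h ∈ hf.toFinset, (cex X φ h (κ' h) - cex X φ h (κ h)) * Y h =
      ∑ h ∈ hf.toFinset, cex X φ h (κ' h) * Y h - ∑ h ∈ hf.toFinset, cex X φ h (κ h) * Y h := by
    rw [← Finset.sum_sub_distrib]
    exact Finset.sum_congr rfl fun h _ => by ring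
  rw [e, sum_cex hf hκ' hY', sum_cex hf hκ hY, sub_self, zero_div]

theorem cex_congr {X : Expl A B} {φ ψ : A → ℝ} (h : ∀ a ∈ X.C, φ a = ψ a) (a : A) (k : ℕ) :
    cex X φ a k = cex X ψ a k := by
  rw [cex, cex, Ex, Ex]
  congr 1
  refine finsum_mem_congr rfl fun b hb => h b hb.1

/-- The value at step `0` when the start of the path is fixed. -/
theorem cex_zero {X : Expl A B} {φ : A → ℝ} {h : A} (h0 : ∀ h' ∈ X.C, X.r h' 0 = X.r h 0) :
    cex X φ h 0 = Ex X.C φ := by
  have : cyl X h 0 = X.C := by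
    ext a
    refine ⟨fun ha => ha.1, fun ha => ⟨ha, fun j hj => ?_⟩⟩
    obtain rfl : j = 0 := Nat.le_zero.1 hj
    exact h0 a ha
  rw [cex, this]

theorem cex_nonneg {X : Expl A B} {φ : A → ℝ} (h : ∀ a ∈ X.C, 0 ≤ φ a) (a : A) (k : ℕ) :
    0 ≤ cex X φ a k := by
  refine div_nonneg (finsum_nonneg fun b => finsum_nonneg fun hb => h b hb.1) (by positivity)

/-- **The hypothesis on the observable**: for all large `b` and all `ε > 0` there are functions
`φ n` of the outcome whose conditional expectations along the exploration are within `ε` of the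
observable, as long as the exploration stays in `[0, T] × [-R, R]`. -/
def Close (X : ℕ → Expl A B) (O : (ℝ → ℝ) → ℝ → ℝ → ℝ) : Prop :=
  ∀ T R : ℝ, 0 ≤ T → 0 < R → ∃ b₁ : ℝ, ∀ b : ℝ, b₁ ≤ b → ∀ ε : ℝ, 0 < ε →
    ∃ φ : ℕ → A → ℝ, ∀ᶠ n in atTop, ∀ h ∈ (X n).C, ∀ k < (X n).K h,
      (∀ j < k, (X n).c h j ≤ T ∧ |(X n).V h j| ≤ R) →
      |cex (X n) (φ n) h k - O ((X n).W h) b ((X n).c h k)| ≤ ε

theorem abs_ex_le {C : Set A} (hf : C.Finite) (hn : C.Nonempty) {f : A → ℝ} {M : ℝ}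
    (h : ∀ a ∈ C, |f a| ≤ M) : |Ex C f| ≤ M := by
  have hM : 0 ≤ M := by
    obtain ⟨a, ha⟩ := hn
    exact (abs_nonneg _).trans (h a ha)
  rw [Ex, finsum_mem_eq_finite_toFinset_sum _ hf, abs_div, Nat.abs_cast]
  have hpos : (0 : ℝ) < (C.ncard : ℝ) := by
    have := (ncard_pos hf).2 hn
    exact_mod_cast this
  rw [div_le_iff₀ hpos]
  refine (Finset.abs_sum_le_sum_abs _ _).trans ?_
  have e : ∑ i ∈ hf.toFinset, |f i| ≤ ∑ i ∈ hf.toFinset, M :=
    Finset.sum_le_sum fun i hi => h i (hf.mem_toFinset.1 hi)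
  refine e.trans ?_
  rw [Finset.sum_const, nsmul_eq_mul, ncard_eq_toFinset_card _ hf, mul_comm]

/-- The observable of an exploration with close conditional expectations is an approximate
martingale. -/
theorem obsG_of_close {O : (ℝ → ℝ) → ℝ → ℝ → ℝ} (hX : AsymB X) (hC : Close X O) :
    ObsG (sysX X) O hX.prX where
  cont := fun n h => W_cont n h
  meas := fun n k z => measurable_from_top
  mart := by
    classical
    intro T R hT hR
    obtain ⟨b₁, hb₁⟩ := hC T R hT hR
    refine ⟨b₁, fun b hb => ⟨fun _ => b, tendsto_const_nhds, fun κ κ' Y hκ hκ' hle hY hY1 => ?_⟩⟩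
    rw [Metric.tendsto_atTop]
    intro ε hε
    obtain ⟨φ, hφ⟩ := hb₁ b hb (ε / 4) (by positivity)
    have hlt := hX.lt_K (T := T) (R := R)
    obtain ⟨N, hN⟩ := eventually_atTop.1 (hφ.and hlt)
    refine ⟨N, fun n hn => ?_⟩
    obtain ⟨h1, h2⟩ := hN n hn
    have hwf := hX.wf n
    rw [Real.dist_eq, sub_zero]
    -- extend the stopping indices
    obtain ⟨k1, hk1⟩ : ∃ k1 : A → ℕ, ∀ (h : A) (hh : h ∈ (X n).C), k1 h = κ n ⟨h, hh⟩ :=
      ⟨fun h => if hh : h ∈ (X n).C then κ n ⟨h, hh⟩ else 0, fun h hh => dif_pos hh⟩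
    obtain ⟨k2, hk2⟩ : ∃ k2 : A → ℕ, ∀ (h : A) (hh : h ∈ (X n).C), k2 h = κ' n ⟨h, hh⟩ :=
      ⟨fun h => if hh : h ∈ (X n).C then κ' n ⟨h, hh⟩ else 0, fun h hh => dif_pos hh⟩
    obtain ⟨Z, hZ⟩ : ∃ Z : A → ℝ, ∀ (h : A) (hh : h ∈ (X n).C), Z h = Y n ⟨h, hh⟩ :=
      ⟨fun h => if hh : h ∈ (X n).C then Y n ⟨h, hh⟩ else 0, fun h hh => dif_pos hh⟩
    have s1 : (X n).StopIx k1 := fun h hh h' hh' ha => by
      rw [hk1 h hh] at ha
      rw [hk1 h hh, hk1 h' hh']
      exact Expl.stop_of (hκ n) (h := ⟨h, hh⟩) (h' := ⟨h', hh'⟩) ha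
    have s2 : (X n).StopIx k2 := fun h hh h' hh' ha => by
      rw [hk2 h hh] at ha
      rw [hk2 h hh, hk2 h' hh']
      exact Expl.stop_of (hκ'.stop n) (h := ⟨h, hh⟩) (h' := ⟨h', hh'⟩) ha
    have s3 : (X n).StopMeas k1 Z := fun h hh h' hh' ha => by
      rw [hk1 h hh] at ha
      rw [hZ h hh, hZ h' hh']
      exact Expl.past_of (hκ n) (hY n) (h := ⟨h, hh⟩) (h' := ⟨h', hh'⟩) ha
    have s4 : ∀ h ∈ (X n).C, k1 h ≤ k2 h := fun h hh => by
      rw [hk1 h hh, hk2 h hh]
      exact hle n _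
    have s5 : ∀ h ∈ (X n).C, k2 h < (X n).K h := fun h hh => by
      rw [hk2 h hh]
      exact h2 ⟨h, hh⟩ _ (hκ'.bef n ⟨h, hh⟩)
    have s6 : ∀ h ∈ (X n).C, ∀ j < k2 h, (X n).c h j ≤ T ∧ |(X n).V h j| ≤ R := by
      intro h hh j hj
      have hj2 := hj
      rw [hk2 h hh] at hj
      obtain ⟨h5, h6⟩ := hκ'.bef n ⟨h, hh⟩ j hj
      have hjK : j ≤ (X n).K h := (hj2.trans (s5 h hh)).le
      have e4 : (sysX X).τ n j ⟨h, hh⟩ = (X n).c h j := Expl.tt_le hjK
      have e5 : (sysX X).V n j ⟨h, hh⟩ = (X n).V h j := Expl.W_tt_le hjK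
      rw [e4] at h5
      rw [e5] at h6
      exact ⟨h5, h6⟩
    have e0 : ∫ ω, (O ((sysX X).W n ω) b ((sysX X).Ta κ' n ω) -
        O ((sysX X).W n ω) b ((sysX X).Ta κ n ω)) * Y n ω ∂(hX.prX n) =
        Ex (X n).C (fun h => (O ((X n).W h) b ((X n).c h (k2 h)) -
          O ((X n).W h) b ((X n).c h (k1 h))) * Z h) := by
      rw [← hX.integral_prX n]
      refine integral_congr_ae (Eventually.of_forall fun h => ?_)
      have h3 : k2 h = κ' n h := hk2 h h.2
      have h4 : k1 h = κ n h := hk1 h h.2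
      have h5 : Z h = Y n h := hZ h h.2
      have h6 : κ' n h < (X n).K h := by rw [← h3]; exact s5 h h.2
      have h7 : κ n h < (X n).K h := lt_of_le_of_lt (hle n h) h6
      have h8 : (sysX X).Ta κ' n h = (X n).c h (κ' n h) := Expl.tt_le h6.le
      have h9 : (sysX X).Ta κ n h = (X n).c h (κ n h) := Expl.tt_le h7.le
      change (O ((X n).W h) b ((sysX X).Ta κ' n h) - O ((X n).W h) b ((sysX X).Ta κ n h)) * Y n h =
        (O ((X n).W h) b ((X n).c h (k2 h)) - O ((X n).W h) b ((X n).c h (k1 h))) * Z h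
      rw [h3, h4, h5, h8, h9]
    rw [e0]
    have e1 := ex_cex hwf.fin s1 s2 s4 s3 (φ n)
    have e2 : Ex (X n).C (fun h => (O ((X n).W h) b ((X n).c h (k2 h)) -
          O ((X n).W h) b ((X n).c h (k1 h))) * Z h) =
        Ex (X n).C (fun h => (O ((X n).W h) b ((X n).c h (k2 h)) -
          O ((X n).W h) b ((X n).c h (k1 h))) * Z h -
          (cex (X n) (φ n) h (k2 h) - cex (X n) (φ n) h (k1 h)) * Z h) := by
      rw [ex_eq_sum hwf.fin] at e1 ⊢
      rw [ex_eq_sum hwf.fin, Finset.sum_sub_distrib, sub_div, e1, sub_zero]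
    rw [e2]
    refine lt_of_le_of_lt (abs_ex_le hwf.fin hwf.ne (M := ε / 2) fun h hh => ?_) (by linarith)
    have a1 := h1 h hh (k2 h) (s5 h hh) (s6 h hh)
    have a2 := h1 h hh (k1 h) ((s4 h hh).trans_lt (s5 h hh))
      (fun j hj => s6 h hh j (hj.trans_le (s4 h hh)))
    have a3 : |Z h| ≤ 1 := by rw [hZ h hh]; exact hY1 n _
    have e3 : (O ((X n).W h) b ((X n).c h (k2 h)) - O ((X n).W h) b ((X n).c h (k1 h))) * Z h -
        (cex (X n) (φ n) h (k2 h) - cex (X n) (φ n) h (k1 h)) * Z h =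
        ((cex (X n) (φ n) h (k1 h) - O ((X n).W h) b ((X n).c h (k1 h))) -
          (cex (X n) (φ n) h (k2 h) - O ((X n).W h) b ((X n).c h (k2 h)))) * Z h := by ring
    rw [e3, abs_mul]
    refine (mul_le_of_le_one_right (abs_nonneg _) a3).trans ?_
    refine (abs_sub _ _).trans ?_
    linarith

/-- **The drivers of the explorations converge in law to `√v B`.** -/
theorem drv_weak [MeasurableSpace C(ℝ≥0, ℝ)] [BorelSpace C(ℝ≥0, ℝ)]
    {O : (ℝ → ℝ) → ℝ → ℝ → ℝ} {v c₀ c₁ c₂ : ℝ} (hv : 0 < v) (hE : Expn O v c₀ c₁ c₂)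
    (hX : AsymB X) (hC : Close X O) :
    ∃ (lam : Measure C(ℝ≥0, ℝ)) (_ : IsProbabilityMeasure lam),
      IsBrownianReal (fun (t : ℝ≥0) (w : C(ℝ≥0, ℝ)) => w t / √v) lam ∧
      ∀ f : C(ℝ≥0, ℝ) → ℝ, Continuous f → (∃ M, ∀ y, |f y| ≤ M) →
        Tendsto (fun n => Ex (X n).C fun h => f ((X n).w h)) atTop (𝓝 (∫ y, f y ∂lam)) := by
  have hp : ∀ n, IsProbabilityMeasure (hX.prX n) := hX.prX_prob
  have hO := obsG_of_close hX hC
  obtain ⟨lam, hlam, hB, hlim⟩ := weak_limit_k (P := hX.prX) (fun n h => W_cont n h) hv hX.ok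
    (hO.am hv.le hE hX.ok)
  refine ⟨lam, hlam, hB, fun f hf hM => ?_⟩
  refine (hlim f hf hM).congr fun n => ?_
  rw [← hX.integral_prX n]
  refine integral_congr_ae (Eventually.of_forall fun h => ?_)
  change f ((sysX X).path _ n h) = f ((X n).w h)
  congr 1
  ext t
  change (X n).w h (t : ℝ).toNNReal = _
  rw [Real.toNNReal_coe]

/-- The case of the three-point observable. -/
theorem drv_weakF [MeasurableSpace C(ℝ≥0, ℝ)] [BorelSpace C(ℝ≥0, ℝ)] (hX : AsymB X)
    (hC : Close X obsF) :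
    ∃ (lam : Measure C(ℝ≥0, ℝ)) (_ : IsProbabilityMeasure lam),
      IsBrownianReal (fun (t : ℝ≥0) (w : C(ℝ≥0, ℝ)) => w t / √6) lam ∧
      ∀ f : C(ℝ≥0, ℝ) → ℝ, Continuous f → (∃ M, ∀ y, |f y| ≤ M) →
        Tendsto (fun n => Ex (X n).C fun h => f ((X n).w h)) atTop (𝓝 (∫ y, f y ∂lam)) :=
  drv_weak (by norm_num) expn_obsF hX hC

/-- The case of Cardy's observable. -/
theorem drv_weakC [MeasurableSpace C(ℝ≥0, ℝ)] [BorelSpace C(ℝ≥0, ℝ)] (hX : AsymB X)
    (hC : Close X obsC) :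
    ∃ (lam : Measure C(ℝ≥0, ℝ)) (_ : IsProbabilityMeasure lam),
      IsBrownianReal (fun (t : ℝ≥0) (w : C(ℝ≥0, ℝ)) => w t / √6) lam ∧
      ∀ f : C(ℝ≥0, ℝ) → ℝ, Continuous f → (∃ M, ∀ y, |f y| ≤ M) →
        Tendsto (fun n => Ex (X n).C fun h => f ((X n).w h)) atTop (𝓝 (∫ y, f y ∂lam)) :=
  drv_weak (by norm_num) expn_obsC hX hC

end

end Vale.Agent.P167.H411
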