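import Vale.Agent.P167.H411.Crv
import Vale.Agent.P167.H411.FinG
import Vale.Agent.P153.R2.STEP.Main

/-!
# P167, block DRV6: families of simple curves as finite explorations

`DC`: a finite family of simple curves in a domain, explored step by step. `expl`: the exploration
with the driver of the image in the half-plane, frozen in the middle of the last step. `asymB`: it is
well formed, has small steps, and leaves all compact sets before the last step. `disc`: the curves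
are images of curves generated by the driver.
-/

set_option autoImplicit false
set_option linter.unusedVariables false

open MeasureTheory ProbabilityTheory Filter Topology Set
open scoped NNReal ENNReal

namespace Vale.Agent.P167.H411

open Vale.Agent.P153 (M1.Expl)
open Vale.Agent.P153.R2
open Vale.Agent.P153.R2.L2 (Crv gg cc ww drv tau)
open Vale.Agent.P153.R2.L2.Crv (drvT)
open Vale.Agent.P153.R2.ARCX (SGen)
open Vale.Agent.P153.R2.DET (Uni)
open Vale.Agent.P153.R2.UNIQ (Disc)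
open Vale.Agent.P164 (loewnerDomain)

/-- A finite family `C` of curves `X h` on `[0, K h]`; `r h j` is the state after `j` steps. -/
structure DC (A B : Type*) where
  C : Set A
  r : A → ℕ → B
  K : A → ℕ
  X : A → ℝ → ℂ

/-- The closed half-plane. -/
def HB : Set ℂ := {z | 0 ≤ z.im}

theorem isClosed_HB : IsClosed HB := isClosed_le continuous_const Complex.continuous_im

/-- The family of curves is well formed in the domain with the uniformizer `ψ` and the end point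
`b`; every step has diameter at most `ε`. -/
structure DC.WF {A B : Type*} (Q : DC A B) (ψ : ℂ → ℂ) (b : ℂ) (ε : ℝ) : Prop where
  fin : Q.C.Finite
  ne : Q.C.Nonempty
  pos : ∀ h ∈ Q.C, 0 < Q.K h
  stopK : ∀ h ∈ Q.C, ∀ h' ∈ Q.C, (∀ j ≤ Q.K h, Q.r h' j = Q.r h j) → Q.K h' = Q.K h
  ad : ∀ h ∈ Q.C, ∀ h' ∈ Q.C, ∀ j ≤ Q.K h, (∀ i ≤ j, Q.r h' i = Q.r h i) →
    ∀ t ∈ Icc (0 : ℝ) j, Q.X h' t = Q.X h t
  cont : ∀ h ∈ Q.C, ContinuousOn (Q.X h) (Icc 0 (Q.K h : ℝ))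
  inj : ∀ h ∈ Q.C, InjOn (Q.X h) (Icc 0 (Q.K h : ℝ))
  start : ∀ h ∈ Q.C, Q.X h 0 = ψ 0
  last : ∀ h ∈ Q.C, Q.X h (Q.K h) = b
  inter : ∀ h ∈ Q.C, ∀ t ∈ Ioo 0 (Q.K h : ℝ), Q.X h t ∈ ψ '' {z | 0 < z.im}
  step : ∀ h ∈ Q.C, ∀ j < Q.K h, ∀ t ∈ Icc (j : ℝ) (j + 1), dist (Q.X h t) (Q.X h j) ≤ ε

variable {A B : Type*} {Q : DC A B} {ψ : ℂ → ℂ} {b : ℂ} {ε : ℝ} {h h' : A}

namespace DC

/-- The curve in the half-plane. -/
noncomputable def et (Q : DC A B) (ψ : ℂ → ℂ) (h : A) (t : ℝ) : ℂ :=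
  Function.invFunOn ψ HB (Q.X h t)

/-- The parameter time of step `j` (the last step is cut in the middle). -/
noncomputable def sj (Q : DC A B) (h : A) (j : ℕ) : ℝ := min (j : ℝ) (Q.K h - 1 / 2)

open Classical in
/-- The driver, frozen in the middle of the last step. -/
noncomputable def wf (Q : DC A B) (ψ : ℂ → ℂ) (h : A) : C(ℝ≥0, ℝ) :=
  if hc : Continuous (drvT (Q.et ψ h) (Q.K h) (Q.K h - 1 / 2)) then
    ⟨fun u => drvT (Q.et ψ h) (Q.K h) (Q.K h - 1 / 2) u, hc.comp NNReal.continuous_coe⟩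
  else 0

/-- The exploration of the curves. -/
noncomputable def expl (Q : DC A B) (ψ : ℂ → ℂ) : M1.Expl A B where
  C := Q.C
  r := Q.r
  K := Q.K
  c := fun h j => cc (Q.et ψ h) (Q.sj h j)
  w := Q.wf ψ

/-! ### The curve in the half-plane -/

namespace WF

variable (H : Q.WF ψ b ε) (hU : Uni ψ b)
include H

theorem posR (hh : h ∈ Q.C) : (0 : ℝ) < Q.K h := by exact_mod_cast H.pos h hh

theorem oneR (hh : h ∈ Q.C) : (1 : ℝ) ≤ Q.K h := by exact_mod_cast H.pos h hh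

theorem X_mem (hh : h ∈ Q.C) {t : ℝ} (h0 : 0 ≤ t) (ht : t < Q.K h) : Q.X h t ∈ ψ '' HB := by
  rcases h0.eq_or_lt with h1 | h1
  · rw [← h1, H.start h hh]
    exact mem_image_of_mem _ (by simp [HB])
  · obtain ⟨z, hz, hzt⟩ := H.inter h hh t ⟨h1, ht⟩
    have hz' : (0 : ℝ) < z.im := hz
    exact ⟨z, hz'.le, hzt⟩

theorem et_mem (hh : h ∈ Q.C) {t : ℝ} (h0 : 0 ≤ t) (ht : t < Q.K h) : Q.et ψ h t ∈ HB :=
  Function.invFunOn_mem (H.X_mem hh h0 ht)

theorem psi_et (hh : h ∈ Q.C) {t : ℝ} (h0 : 0 ≤ t) (ht : t < Q.K h) :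
    ψ (Q.et ψ h t) = Q.X h t :=
  Function.invFunOn_eq (H.X_mem hh h0 ht)

include hU

theorem et_zero (hh : h ∈ Q.C) : Q.et ψ h 0 = 0 := by
  have h1 := H.psi_et hh le_rfl (H.posR hh)
  rw [H.start h hh] at h1
  exact hU.inj (H.et_mem hh le_rfl (H.posR hh)) (show (0 : ℝ) ≤ (0 : ℂ).im by simp) h1

theorem et_im (hh : h ∈ Q.C) {t : ℝ} (h0 : 0 < t) (ht : t < Q.K h) : 0 < (Q.et ψ h t).im := by
  obtain ⟨z, hz, hzt⟩ := H.inter h hh t ⟨h0, ht⟩
  have hz' : (0 : ℝ) < z.im := hz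
  have h1 := H.psi_et hh h0.le ht
  rw [← hzt] at h1
  rw [hU.inj (H.et_mem hh h0.le ht) hz'.le h1]
  exact hz'

theorem et_cont (hh : h ∈ Q.C) : ContinuousOn (Q.et ψ h) (Ico 0 (Q.K h : ℝ)) := by
  have h1 := inv_cont (A := HB) isClosed_HB hU.cont hU.inj hU.inf hU.ne
  exact h1.comp ((H.cont h hh).mono Ico_subset_Icc_self) fun t ht => H.X_mem hh ht.1 ht.2

omit hU in
theorem et_inj (hh : h ∈ Q.C) : InjOn (Q.et ψ h) (Ico 0 (Q.K h : ℝ)) := by
  intro s hs t ht he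
  have h1 := H.psi_et hh hs.1 hs.2
  have h2 := H.psi_et hh ht.1 ht.2
  rw [he, h2] at h1
  exact (H.inj h hh ⟨ht.1, ht.2.le⟩ ⟨hs.1, hs.2.le⟩ h1).symm

/-- **The curve in the half-plane is a simple curve.** -/
theorem crv (hh : h ∈ Q.C) : Crv (Q.et ψ h) (Q.K h) where
  pos := H.posR hh
  cont := H.et_cont hU hh
  inj := H.et_inj hh
  start := by rw [H.et_zero hU hh, Complex.zero_im]
  im_pos := fun t ht => H.et_im hU hh ht.1 ht.2

end WF

/-! ### The exploration -/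

theorem sj_lt {j : ℕ} (hj : j < Q.K h) : Q.sj h j = j := by
  refine min_eq_left ?_
  have : (j : ℝ) + 1 ≤ Q.K h := by exact_mod_cast hj
  linarith

theorem sj_K : Q.sj h (Q.K h) = Q.K h - 1 / 2 := min_eq_right (by linarith)

theorem sj_le (j : ℕ) : Q.sj h j ≤ Q.K h - 1 / 2 := min_le_right _ _

theorem sj_le' (j : ℕ) : Q.sj h j ≤ j := min_le_left _ _

theorem sj_mono {i j : ℕ} (hij : i ≤ j) : Q.sj h i ≤ Q.sj h j :=
  min_le_min (by exact_mod_cast hij) le_rfl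

theorem half_mem (hn : 0 < Q.K h) : (Q.K h - 1 / 2 : ℝ) ∈ Ico 0 (Q.K h : ℝ) := by
  have : (1 : ℝ) ≤ Q.K h := by exact_mod_cast hn
  exact ⟨by linarith, by linarith⟩

theorem sj_mem (hn : 0 < Q.K h) (j : ℕ) : Q.sj h j ∈ Ico 0 (Q.K h : ℝ) :=
  ⟨le_min (Nat.cast_nonneg j) (half_mem hn).1, (sj_le j).trans_lt (half_mem hn).2⟩

theorem wf_eq (hc : Crv (Q.et ψ h) (Q.K h)) (hn : 0 < Q.K h) (u : ℝ≥0) :
    Q.wf ψ h u = drvT (Q.et ψ h) (Q.K h) (Q.K h - 1 / 2) u := by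
  have h1 : Continuous (drvT (Q.et ψ h) (Q.K h) (Q.K h - 1 / 2)) :=
    hc.continuous_drvT (half_mem hn)
  unfold wf
  rw [dif_pos h1]
  rfl

/-- The value of the driver at the capacity time of `t`. -/
theorem wf_cc (hc : Crv (Q.et ψ h) (Q.K h)) (hn : 0 < Q.K h) {t : ℝ} (h0 : 0 ≤ t)
    (ht : t ≤ Q.K h - 1 / 2) : Q.wf ψ h (cc (Q.et ψ h) t).toNNReal = ww (Q.et ψ h) t := by
  have htT : t ∈ Ico 0 (Q.K h : ℝ) := ⟨h0, ht.trans_lt (half_mem hn).2⟩
  have h1 : 0 ≤ cc (Q.et ψ h) t := hc.cap_nonneg htT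
  rw [wf_eq hc hn, Real.coe_toNNReal _ h1]
  exact drvT_cc hc h0 ht (half_mem hn).2

theorem V_eq (hc : Crv (Q.et ψ h) (Q.K h)) (hn : 0 < Q.K h) (j : ℕ) :
    (Q.expl ψ).V h j = ww (Q.et ψ h) (Q.sj h j) :=
  wf_cc hc hn (sj_mem hn j).1 (sj_le j)

theorem W_eq (hc : Crv (Q.et ψ h) (Q.K h)) (hn : 0 < Q.K h) :
    (Q.expl ψ).W h = drvT (Q.et ψ h) (Q.K h) (Q.K h - 1 / 2) := by
  funext t
  change Q.wf ψ h t.toNNReal = _
  rw [wf_eq hc hn, Real.coe_toNNReal']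
  unfold L2.Crv.drvT
  rw [max_eq_left (le_max_right t 0)]

theorem c_lt {j : ℕ} (hj : j < Q.K h) : (Q.expl ψ).c h j = cc (Q.et ψ h) j := by
  change cc (Q.et ψ h) (Q.sj h j) = _
  rw [sj_lt hj]

theorem V_lt (hc : Crv (Q.et ψ h) (Q.K h)) {j : ℕ} (hj : j < Q.K h) :
    (Q.expl ψ).V h j = ww (Q.et ψ h) j := by
  rw [V_eq hc (by omega) j, sj_lt hj]

/-- The curve is generated by the frozen driver up to the middle of the last step. -/
theorem sgen (hc : Crv (Q.et ψ h) (Q.K h)) (hn : 0 < Q.K h) :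
    Continuous ((Q.expl ψ).W h) ∧
      SGen ((Q.expl ψ).W h) (Q.et ψ h) (cc (Q.et ψ h)) (Q.K h - 1 / 2) := by
  rw [W_eq hc hn]
  have h1 := half_mem hn
  have h2 : (1 : ℝ) ≤ Q.K h := by exact_mod_cast hn
  exact hc.sgen_local (t₁ := Q.K h - 1 / 2) ⟨by linarith, h1.2⟩

theorem et_congr (H : Q.WF ψ b ε) (hh : h ∈ Q.C) (hh' : h' ∈ Q.C) {j : ℕ} (hj : j ≤ Q.K h)
    (ha : ∀ i ≤ j, Q.r h' i = Q.r h i) {t : ℝ} (h0 : 0 ≤ t) (ht : t ≤ j) :
    Q.et ψ h' t = Q.et ψ h t := by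
  unfold et
  rw [H.ad h hh h' hh' j hj ha t ⟨h0, ht⟩]

theorem adc (H : Q.WF ψ b ε) (hU : Uni ψ b) (hh : h ∈ Q.C) (hh' : h' ∈ Q.C) {j : ℕ}
    (hj : j ≤ Q.K h) (ha : ∀ i ≤ j, Q.r h' i = Q.r h i) (hsj : Q.sj h' j = Q.sj h j) :
    (Q.expl ψ).c h' j = (Q.expl ψ).c h j ∧ (Q.expl ψ).V h' j = (Q.expl ψ).V h j := by
  have hc := H.crv hU hh
  have hc' := H.crv hU hh'
  have hn := H.pos h hh
  have hn' := H.pos h' hh'
  have he : ∀ u ∈ Icc 0 (Q.sj h j), Q.et ψ h' u = Q.et ψ h u :=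
    fun u hu => et_congr H hh hh' hj ha hu.1 (hu.2.trans (sj_le' j))
  constructor
  · change cc (Q.et ψ h') (Q.sj h' j) = cc (Q.et ψ h) (Q.sj h j)
    rw [hsj]
    exact cc_congr he
  · rw [V_eq hc hn, V_eq hc' hn', hsj]
    have h1 := sj_mem hn' j
    rw [hsj] at h1
    exact ww_congr hc hc' (sj_mem hn j).1 (sj_mem hn j).2 h1.2 he

theorem sj_agree (H : Q.WF ψ b ε) (hh : h ∈ Q.C) (hh' : h' ∈ Q.C) {j : ℕ} (hj : j ≤ Q.K h)
    (ha : ∀ i ≤ j, Q.r h' i = Q.r h i) : Q.sj h' j = Q.sj h j := by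
  rcases Nat.lt_or_ge j (Q.K h) with h1 | h1
  · have h2 : j < Q.K h' := by
      by_contra hc
      push Not at hc
      have := H.stopK h' hh' h hh fun i hi => (ha i (hi.trans hc)).symm
      omega
    rw [sj_lt h1, sj_lt h2]
  · have h3 : Q.K h' = Q.K h := H.stopK h hh h' hh' fun i hi => ha i (hi.trans h1)
    unfold sj
    rw [h3]

theorem expl_const (H : Q.WF ψ b ε) (hU : Uni ψ b) (hh : h ∈ Q.C) (t : ℝ≥0)
    (ht : (Q.expl ψ).c h ((Q.expl ψ).K h) ≤ t) :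
    (Q.expl ψ).w h t = (Q.expl ψ).V h ((Q.expl ψ).K h) := by
  have hc := H.crv hU hh
  have hn := H.pos h hh
  rw [V_eq hc hn]
  change Q.wf ψ h t = ww (Q.et ψ h) (Q.sj h (Q.K h))
  have ht' : cc (Q.et ψ h) (Q.K h - 1 / 2) ≤ t := by
    have : cc (Q.et ψ h) (Q.sj h (Q.K h)) ≤ t := ht
    rwa [sj_K] at this
  have h0 : 0 ≤ cc (Q.et ψ h) (Q.K h - 1 / 2) := hc.cap_nonneg (half_mem hn)
  rw [sj_K, ← wf_cc hc hn (half_mem hn).1 le_rfl, wf_eq hc hn, wf_eq hc hn,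
    Real.coe_toNNReal _ h0]
  unfold L2.Crv.drvT
  have e1 : min (max (t : ℝ) 0) (cc (Q.et ψ h) (Q.K h - 1 / 2)) =
      cc (Q.et ψ h) (Q.K h - 1 / 2) := by
    rw [max_eq_left (NNReal.coe_nonneg t)]
    exact min_eq_right ht'
  have e2 : min (max (cc (Q.et ψ h) (Q.K h - 1 / 2)) 0)
      (cc (Q.et ψ h) (Q.K h - 1 / 2)) = cc (Q.et ψ h) (Q.K h - 1 / 2) := by
    rw [max_eq_left h0]
    exact min_eq_left le_rfl
  rw [e1, e2]

/-- The exploration is well formed. -/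
theorem expl_wf (H : Q.WF ψ b ε) (hU : Uni ψ b) : (Q.expl ψ).WF where
  fin := H.fin
  ne := H.ne
  pos := H.pos
  stopK := fun h hh h' hh' ha => H.stopK h hh h' hh' ha
  adc := fun h hh h' hh' j hj ha => adc H hU hh hh' hj ha (sj_agree H hh hh' hj ha)
  c0 := by
    intro h hh
    have hc := H.crv hU hh
    rw [c_lt (H.pos h hh), Nat.cast_zero]
    exact hc.cap_zero
  w0 := by
    intro h hh
    have hc := H.crv hU hh
    have h1 := wf_cc hc (H.pos h hh) le_rfl (half_mem (H.pos h hh)).1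
    rw [hc.cap_zero, Real.toNNReal_zero] at h1
    change Q.wf ψ h 0 = 0
    rw [h1]
    have h3 := ww_zero hc
    rw [H.et_zero hU hh] at h3
    exact_mod_cast h3
  mono := fun h hh j _ => (H.crv hU hh).strictMono.monotoneOn (sj_mem (H.pos h hh) j)
    (sj_mem (H.pos h hh) (j + 1)) (sj_mono (Nat.le_succ j))
  const := fun h hh t ht => expl_const H hU hh t ht

/-- The last step stays near the end point. -/
theorem last_near (H : Q.WF ψ b ε) (hh : h ∈ Q.C) {t : ℝ} (h0 : (Q.K h : ℝ) - 1 ≤ t)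
    (h1 : t ≤ Q.K h) : dist (Q.X h t) b ≤ 2 * ε := by
  obtain ⟨m, hm⟩ : ∃ m, Q.K h = m + 1 := ⟨Q.K h - 1, by have := H.pos h hh; omega⟩
  have hK : (Q.K h : ℝ) = m + 1 := by rw [hm]; push_cast; ring
  have h2 := H.step h hh m (by omega) t ⟨by linarith, by linarith⟩
  have h3 := H.step h hh m (by omega) (m + 1) ⟨by linarith, le_rfl⟩
  rw [← hK, H.last h hh, dist_comm] at h3
  rw [dist_comm] at h3
  have h4 := dist_triangle_right (Q.X h t) b (Q.X h m)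
  linarith

end DC

/-! ### Sequences -/

theorem diag {P : ℕ → ℝ → Prop} (hm : ∀ n a a', a ≤ a' → P n a → P n a')
    (hP : ∀ e > 0, ∀ᶠ n in atTop, P n e) :
    ∃ e : ℕ → ℝ, Tendsto e atTop (𝓝 0) ∧ ∀ᶠ n in atTop, P n (e n) := by
  have hbd : ∀ n, BddBelow {a : ℝ | 0 < a ∧ P n a} := fun n => ⟨0, fun a ha => ha.1.le⟩
  refine ⟨fun n => sInf {a : ℝ | 0 < a ∧ P n a} + 1 / ((n : ℝ) + 1), ?_, ?_⟩
  · rw [Metric.tendsto_nhds]
    intro e he
    have h1 : ∀ᶠ n : ℕ in atTop, 1 / ((n : ℝ) + 1) < e / 2 :=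
      (tendsto_one_div_add_atTop_nhds_zero_nat (𝕜 := ℝ)).eventually_lt_const (by positivity)
    filter_upwards [h1, hP (e / 2) (by positivity)] with n hn hn'
    have h2 : sInf {a : ℝ | 0 < a ∧ P n a} ≤ e / 2 := csInf_le (hbd n) ⟨by positivity, hn'⟩
    have h3 : 0 ≤ sInf {a : ℝ | 0 < a ∧ P n a} :=
      le_csInf ⟨_, by positivity, hn'⟩ fun a ha => ha.1.le
    have h4 : 0 < 1 / ((n : ℝ) + 1) := by positivity
    rw [Real.dist_eq, sub_zero, abs_of_nonneg (by linarith)]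
    linarith
  · filter_upwards [hP 1 one_pos] with n hn
    have h4 : 0 < 1 / ((n : ℝ) + 1) := by positivity
    obtain ⟨a, ha, hlt⟩ := exists_lt_of_csInf_lt (s := {a : ℝ | 0 < a ∧ P n a})
      ⟨1, one_pos, hn⟩ (show sInf {a : ℝ | 0 < a ∧ P n a} <
        sInf {a : ℝ | 0 < a ∧ P n a} + 1 / ((n : ℝ) + 1) by linarith)
    exact hm n _ _ hlt.le ha.2

/-- The hypotheses on a sequence of families of curves. -/
structure DCs (Q : ℕ → DC A B) (ψn : ℕ → ℂ → ℂ) (bn : ℕ → ℂ) (ε : ℕ → ℝ) (ψ : ℂ → ℂ) (b : ℂ) :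
    Prop where
  wf : ∀ n, (Q n).WF (ψn n) (bn n) (ε n)
  unin : ∀ n, Uni (ψn n) (bn n)
  diff : ∀ n, DifferentiableOn ℂ (ψn n) {z : ℂ | 0 < z.im}
  uni : Uni ψ b
  unif : TendstoUniformlyOn ψn ψ atTop DET.HC
  endp : Tendsto bn atTop (𝓝 b)
  eps : Tendsto ε atTop (𝓝 0)

section

variable {Q : ℕ → DC A B} {ψn : ℕ → ℂ → ℂ} {bn : ℕ → ℂ} {ε : ℕ → ℝ} {ψ : ℂ → ℂ} {b : ℂ}

/-- The steps are small as long as the capacity and the driver are bounded, and then the step is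
not the last one. -/
theorem DCs.key (H : DCs Q ψn bn ε ψ b) (T R : ℝ) {e : ℝ} (he : 0 < e) :
    ∀ᶠ n in atTop, ∀ h ∈ (Q n).C, ∀ k < (Q n).K h,
      (∀ j ≤ k, ((Q n).expl (ψn n)).c h j ≤ T ∧ |((Q n).expl (ψn n)).V h j| ≤ R) →
      k + 1 < (Q n).K h ∧
      ((Q n).expl (ψn n)).c h (k + 1) - ((Q n).expl (ψn n)).c h k ≤ e ∧
      ∀ u : ℝ≥0, ((Q n).expl (ψn n)).c h k ≤ u → (u : ℝ) ≤ ((Q n).expl (ψn n)).c h (k + 1) →
        |((Q n).expl (ψn n)).w h u - ((Q n).expl (ψn n)).V h k| ≤ e := by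
  obtain ⟨δ₀, hδ₀, hst⟩ := STEP.steps_seq (ψ := ψ) (b := b) H.uni.cont H.uni.ne H.uni.inf
    H.diff (fun n => (H.unin n).inj.mono fun z hz => (show (0 : ℝ) < z.im from hz).le)
    (fun e' he' => by
      filter_upwards [Metric.tendstoUniformlyOn_iff.1 H.unif e' he'] with n hn z hz
      rw [dist_comm]
      exact hn z hz) T R he
  have h1 := H.eps.eventually_lt_const (show 0 < δ₀ / 2 by positivity)
  have h2 : ∀ᶠ n in atTop, dist (bn n) b < δ₀ / 2 :=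
    Metric.tendsto_nhds.1 H.endp (δ₀ / 2) (by positivity)
  filter_upwards [hst, h1, h2] with n hn hεn hbn h hh k hk hb
  have hc := (H.wf n).crv (H.unin n) hh
  have hpos := (H.wf n).pos h hh
  obtain ⟨hWc, hsg⟩ := DC.sgen hc hpos
  obtain ⟨m, hm⟩ : ∃ m, (Q n).K h = m + 1 := ⟨(Q n).K h - 1, by omega⟩
  have hK : ((Q n).K h : ℝ) = m + 1 := by rw [hm]; push_cast; ring
  have hm0 : (0 : ℝ) ≤ m := Nat.cast_nonneg m
  have hW0 : ((Q n).expl (ψn n)).W h 0 = 0 := by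
    have := (DC.expl_wf (H.wf n) (H.unin n)).w0 h hh
    change ((Q n).expl (ψn n)).w h (0 : ℝ).toNNReal = 0
    rwa [Real.toNNReal_zero]
  have hε0 : 0 ≤ ε n := dist_nonneg.trans ((H.wf n).step h hh 0 hpos 0 ⟨by simp, by simp⟩)
  have hkey := hn (((Q n).expl (ψn n)).W h) ((Q n).et (ψn n) h) (cc ((Q n).et (ψn n) h))
    ((Q n).K h - 1 / 2) m (fun j => (j : ℝ)) hWc hW0 hsg (by simp)
    (fun j _ => by push_cast; linarith) (by rw [hK]; linarith)
    (by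
      intro j hj r hr
      have hj' : (j : ℝ) + 1 ≤ m := by exact_mod_cast hj
      have hj0 : (0 : ℝ) ≤ j := Nat.cast_nonneg j
      push_cast at hr
      rw [(H.wf n).psi_et hh (hj0.trans hr.1) (by rw [hK]; linarith [hr.2]),
        (H.wf n).psi_et hh hj0 (by rw [hK]; linarith)]
      have := (H.wf n).step h hh j (by omega) r hr
      linarith)
    (by
      rw [(H.wf n).psi_et hh hm0 (by rw [hK]; linarith)]
      have h3 := (H.wf n).step h hh m (by omega) (m + 1) ⟨by linarith, le_rfl⟩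
      rw [← hK, (H.wf n).last h hh, dist_comm] at h3
      have h4 := dist_triangle ((Q n).X h m) (bn n) b
      linarith)
    k (by omega) (by
      intro j hj
      have h3 := hb j hj
      rw [DC.c_lt (by omega)] at h3
      refine ⟨h3.1, ?_⟩
      have h4 : ((Q n).expl (ψn n)).V h j =
        ((Q n).expl (ψn n)).W h (cc ((Q n).et (ψn n) h) j) := by
        rw [← DC.c_lt (ψ := ψn n) (show j < (Q n).K h by omega)]
        rfl
      rw [← h4]
      exact h3.2)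
  obtain ⟨h3, h4, h5⟩ := hkey
  have hk1 : k + 1 < (Q n).K h := by omega
  refine ⟨hk1, ?_, ?_⟩
  · rw [DC.c_lt hk1, DC.c_lt hk]
    exact h4
  · intro u hu0 hu1
    rw [DC.c_lt hk1] at hu1
    rw [DC.c_lt hk] at hu0
    have h6 := h5 u ⟨hu0, hu1⟩
    have h7 : ((Q n).expl (ψn n)).V h k =
      ((Q n).expl (ψn n)).W h (cc ((Q n).et (ψn n) h) k) := by
      rw [← DC.c_lt (ψ := ψn n) hk]
      rfl
    have h8 : ((Q n).expl (ψn n)).w h u = ((Q n).expl (ψn n)).W h u := by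
      change _ = ((Q n).expl (ψn n)).w h (u : ℝ).toNNReal
      rw [Real.toNNReal_coe]
    rw [h7, h8]
    exact h6

/-- **The explorations of the curves have small steps and leave all compact sets before the last
step.** -/
theorem DCs.asymB (H : DCs Q ψn bn ε ψ b) : AsymB fun n => (Q n).expl (ψn n) where
  wf := fun n => DC.expl_wf (H.wf n) (H.unin n)
  small := by
    intro T R
    refine diag (P := fun n e => ∀ h ∈ ((Q n).expl (ψn n)).C,
      ∀ k, k + 1 < ((Q n).expl (ψn n)).K h → (∀ j ≤ k, ((Q n).expl (ψn n)).c h j ≤ T ∧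
        |((Q n).expl (ψn n)).V h j| ≤ R) →
      ((Q n).expl (ψn n)).c h (k + 1) - ((Q n).expl (ψn n)).c h k ≤ e ∧
      ∀ u : ℝ≥0, ((Q n).expl (ψn n)).c h k ≤ u → (u : ℝ) ≤ ((Q n).expl (ψn n)).c h (k + 1) →
        |((Q n).expl (ψn n)).w h u - ((Q n).expl (ψn n)).V h k| ≤ e) ?_ ?_
    · intro n a a' haa hP h hh k hk hb
      obtain ⟨h1, h2⟩ := hP h hh k hk hb
      exact ⟨h1.trans haa, fun u hu hu' => (h2 u hu hu').trans haa⟩
    · intro e he
      filter_upwards [H.key T R he] with n hn h hh k hk hb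
      have hk' : k < (Q n).K h := Nat.lt_of_succ_lt hk
      exact (hn h hh k hk' hb).2
  far := by
    intro T R
    filter_upwards [H.key T R one_pos] with n hn h hh
    by_contra hcon
    push Not at hcon
    have hpos := (H.wf n).pos h hh
    have h1 := (hn h hh ((Q n).K h - 1) (by omega) fun j hj => hcon j (by
      change j < (Q n).K h
      omega)).1
    omega

end

end Vale.Agent.P167.H411
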