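import Vale.Agent.P167.H411.Expand
import Vale.Agent.P167.H411.ObsG
import Vale.Agent.P167.E6.Defs
import Mathlib.Analysis.SpecialFunctions.Integrals.Basic
import Mathlib.Analysis.SpecialFunctions.ImproperIntegrals

/-!
# P167, block DRV6: expansions of the two boundary observables

* `obsF W b t = (b g_t'(b) / (g_t(b) - W_t)) ^ (1/3)` (three-point function);
* `obsC W b t = cardyF ((g_t(2b) - g_t(b)) / (g_t(2b) - W_t))` (Cardy's formula).
-/

set_option linter.unusedSectionVars false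
set_option linter.unusedVariables false

namespace Vale.Agent.P167.H411

open Set Filter Topology MeasureTheory Vale.Agent.P164 Vale.Agent.P153.BESS
open Vale.Agent.P167.E6 (cardyF)

/-! ### The function of Cardy's formula near `1/2` -/

/-- the density -/
noncomputable def cden (s : ℝ) : ℝ := (s * (1 - s)) ^ (-(2 / 3) : ℝ)

theorem cden_nonneg {s : ℝ} (h0 : 0 ≤ s) (h1 : s ≤ 1) : 0 ≤ cden s :=
  Real.rpow_nonneg (mul_nonneg h0 (by linarith)) _

theorem cden_int : IntervalIntegrable cden volume 0 1 := by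
  have i1 : IntervalIntegrable (fun s : ℝ => s ^ (-(2 / 3) : ℝ)) volume 0 1 :=
    intervalIntegral.intervalIntegrable_rpow' (by norm_num)
  have i2 : IntervalIntegrable (fun s : ℝ => (1 - s) ^ (-(2 / 3) : ℝ)) volume 0 1 := by
    have := i1.comp_sub_left 1
    simp only [sub_zero, sub_self] at this
    exact this.symm
  have i3 := (i1.add i2).const_mul ((1 / 2 : ℝ) ^ (-(2 / 3) : ℝ))
  refine i3.mono_fun ?_ ?_
  · unfold cden
    exact (by fun_prop : Measurable fun s : ℝ => (s * (1 - s)) ^ (-(2 / 3) : ℝ)).aestronglyMeasurable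
  · rw [uIoc_of_le zero_le_one]
    refine (ae_restrict_iff' measurableSet_Ioc).2 (Eventually.of_forall fun s hs => ?_)
    have hs0 : 0 < s := hs.1
    have hs1 : 0 ≤ 1 - s := by linarith [hs.2]
    have a1 : 0 ≤ s ^ (-(2 / 3) : ℝ) := Real.rpow_nonneg hs0.le _
    have a2 : 0 ≤ (1 - s) ^ (-(2 / 3) : ℝ) := Real.rpow_nonneg hs1 _
    have a3 : 0 ≤ (1 / 2 : ℝ) ^ (-(2 / 3) : ℝ) := Real.rpow_nonneg (by norm_num) _
    change ‖cden s‖ ≤ ‖(1 / 2 : ℝ) ^ (-(2 / 3) : ℝ) * (s ^ (-(2 / 3) : ℝ) +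
      (1 - s) ^ (-(2 / 3) : ℝ))‖
    rw [norm_mul, Real.norm_eq_abs, Real.norm_eq_abs, Real.norm_eq_abs,
      abs_of_nonneg (cden_nonneg hs0.le hs.2), abs_of_nonneg a3,
      abs_of_nonneg (add_nonneg a1 a2), cden, Real.mul_rpow hs0.le hs1]
    rcases le_total s (1 / 2) with h | h
    · have h2 : (1 - s) ^ (-(2 / 3) : ℝ) ≤ (1 / 2 : ℝ) ^ (-(2 / 3) : ℝ) :=
        Real.rpow_le_rpow_of_nonpos (by norm_num) (by linarith) (by norm_num)
      nlinarith [mul_le_mul_of_nonneg_left h2 a1, mul_nonneg a3 a2]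
    · have h2 : s ^ (-(2 / 3) : ℝ) ≤ (1 / 2 : ℝ) ^ (-(2 / 3) : ℝ) :=
        Real.rpow_le_rpow_of_nonpos (by norm_num) h (by norm_num)
      nlinarith [mul_le_mul_of_nonneg_right h2 a2, mul_nonneg a3 a1]

/-- the normalisation -/
noncomputable def cZ : ℝ := ∫ s in (0 : ℝ)..1, cden s

theorem cZ_pos : 0 < cZ := by
  refine intervalIntegral.intervalIntegral_pos_of_pos_on cden_int (fun s hs => ?_) one_pos
  exact Real.rpow_pos_of_pos (mul_pos hs.1 (by linarith [hs.2])) _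

theorem cardyF_sub {u : ℝ} (h0 : 0 ≤ u) (h1 : u ≤ 1) :
    cardyF u - cardyF (1 / 2) = (∫ s in (1 / 2 : ℝ)..u, cden s) / cZ := by
  have i1 : IntervalIntegrable cden volume 0 (1 / 2) :=
    cden_int.mono_set (by
      rw [uIcc_of_le (by norm_num), uIcc_of_le zero_le_one]
      exact Icc_subset_Icc_right (by norm_num))
  have i2 : IntervalIntegrable cden volume (1 / 2) u :=
    cden_int.mono_set (by
      rw [uIcc_of_le zero_le_one]
      exact uIcc_subset_Icc ⟨by norm_num, by norm_num⟩ ⟨h0, h1⟩)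
  have e := intervalIntegral.integral_add_adjacent_intervals i1 i2
  change (∫ s in (0 : ℝ)..u, cden s) / cZ - (∫ s in (0 : ℝ)..(1 / 2), cden s) / cZ = _
  rw [← e]
  ring

/-- `F'(1/2)` -/
noncomputable def cD : ℝ := cden (1 / 2) / cZ

theorem cD_pos : 0 < cD := div_pos (Real.rpow_pos_of_pos (by norm_num) _) cZ_pos

theorem cden_near {s : ℝ} (hs : |s - 1 / 2| ≤ 1 / 4) :
    |cden s - cden (1 / 2)| ≤ 2 / 3 * (3 / 16 : ℝ) ^ (-(5 / 3) : ℝ) * (s - 1 / 2) ^ 2 := by
  have e1 : s * (1 - s) = 1 / 4 - (s - 1 / 2) ^ 2 := by ring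
  have e2 : (1 / 2 : ℝ) * (1 - 1 / 2) = 1 / 4 := by norm_num
  have h1 : (s - 1 / 2) ^ 2 ≤ 1 / 16 := by
    have : (s - 1 / 2) ^ 2 = |s - 1 / 2| ^ 2 := (sq_abs _).symm
    rw [this]
    calc |s - 1 / 2| ^ 2 ≤ (1 / 4) ^ 2 := pow_le_pow_left₀ (abs_nonneg _) hs 2
      _ = 1 / 16 := by norm_num
  have h0 := sq_nonneg (s - 1 / 2)
  set S : Set ℝ := Icc (3 / 16) (1 / 4) with hS
  have hder : ∀ x ∈ S, HasDerivWithinAt (fun x : ℝ => x ^ (-(2 / 3) : ℝ))
      ((-(2 / 3)) * x ^ (-(2 / 3) - 1 : ℝ)) S x := by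
    intro x hx
    have hx0 : x ≠ 0 := by
      have := hx.1
      linarith
    exact (Real.hasDerivAt_rpow_const (Or.inl hx0)).hasDerivWithinAt
  have hb : ∀ x ∈ S, ‖(-(2 / 3)) * x ^ (-(2 / 3) - 1 : ℝ)‖ ≤
      2 / 3 * (3 / 16 : ℝ) ^ (-(5 / 3) : ℝ) := by
    intro x hx
    have hx0 : 0 < x := by
      have := hx.1
      linarith
    rw [norm_mul, Real.norm_eq_abs, Real.norm_eq_abs, abs_neg, abs_of_pos (by norm_num),
      abs_of_nonneg (Real.rpow_nonneg hx0.le _)]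
    refine mul_le_mul_of_nonneg_left ?_ (by norm_num)
    have e : (-(2 / 3) - 1 : ℝ) = -(5 / 3) := by norm_num
    rw [e]
    exact Real.rpow_le_rpow_of_nonpos (by norm_num) hx.1 (by norm_num)
  have key := (convex_Icc (3 / 16 : ℝ) (1 / 4)).norm_image_sub_le_of_norm_hasDerivWithin_le hder hb
    (x := 1 / 4) (y := 1 / 4 - (s - 1 / 2) ^ 2) ⟨by norm_num, le_rfl⟩
    ⟨by linarith, by linarith⟩
  rw [cden, cden, e1, e2]
  rw [Real.norm_eq_abs, Real.norm_eq_abs] at key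
  refine key.trans (le_of_eq ?_)
  have e3 : |1 / 4 - (s - 1 / 2) ^ 2 - 1 / 4| = (s - 1 / 2) ^ 2 := by
    rw [show (1 / 4 - (s - 1 / 2) ^ 2 - 1 / 4 : ℝ) = -((s - 1 / 2) ^ 2) by ring, abs_neg,
      abs_of_nonneg h0]
  rw [e3]

/-- **Cardy's function near `1/2`.** -/
theorem cardyF_near : ∃ C : ℝ, 0 ≤ C ∧ ∀ u : ℝ, |u - 1 / 2| ≤ 1 / 4 →
    |cardyF u - cardyF (1 / 2) - cD * (u - 1 / 2)| ≤ C * |u - 1 / 2| ^ 3 := by
  have hZ := cZ_pos
  obtain ⟨L, hL⟩ : ∃ L, L = 2 / 3 * (3 / 16 : ℝ) ^ (-(5 / 3) : ℝ) := ⟨_, rfl⟩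
  have hL0 : 0 ≤ L := by
    rw [hL]
    exact mul_nonneg (by norm_num) (Real.rpow_nonneg (by norm_num) _)
  refine ⟨L / cZ, by positivity, fun u hu => ?_⟩
  have hu' := abs_le.1 hu
  rw [cardyF_sub (by linarith) (by linarith)]
  have i2 : IntervalIntegrable cden volume (1 / 2) u :=
    cden_int.mono_set (by
      rw [uIcc_of_le zero_le_one]
      exact uIcc_subset_Icc ⟨by norm_num, by norm_num⟩ ⟨by linarith, by linarith⟩)
  have e1 : (∫ s in (1 / 2 : ℝ)..u, cden s) / cZ - cD * (u - 1 / 2) =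
      (∫ s in (1 / 2 : ℝ)..u, (cden s - cden (1 / 2))) / cZ := by
    rw [intervalIntegral.integral_sub i2 intervalIntegrable_const,
      intervalIntegral.integral_const, smul_eq_mul, cD]
    field_simp
  rw [e1, abs_div, abs_of_pos hZ]
  have hb : ∀ s ∈ uIoc (1 / 2 : ℝ) u, ‖cden s - cden (1 / 2)‖ ≤ L * |u - 1 / 2| ^ 2 := by
    intro s hs
    have h1 : |s - 1 / 2| ≤ |u - 1 / 2| := abs_sub_left_of_mem_uIcc (uIoc_subset_uIcc hs)
    have h2 := cden_near (h1.trans hu)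
    rw [← hL] at h2
    rw [Real.norm_eq_abs]
    refine h2.trans ?_
    rw [← sq_abs (s - 1 / 2)]
    gcongr
  have h3 := intervalIntegral.norm_integral_le_of_norm_le_const hb
  rw [Real.norm_eq_abs] at h3
  rw [div_mul_eq_mul_div]
  refine div_le_div_of_nonneg_right (h3.trans (le_of_eq ?_)) hZ.le
  ring

/-! ### The observable -/

open Classical in
/-- the flow at the real point `b`, time `t` -/
noncomputable def gR (W : ℝ → ℝ) (b t : ℝ) : ℝ := if h : ∃ y, RSol W b t y then h.choose t else b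

theorem gR_eq {W y : ℝ → ℝ} {b t : ℝ} (ht : 0 ≤ t) (hW : ContinuousOn W (Icc 0 t))
    (hy : RSol W b t y) : gR W b t = y t := by
  have h : ∃ y, RSol W b t y := ⟨y, hy⟩
  rw [gR, dif_pos h]
  exact rsol_unique ht hW h.choose_spec hy ⟨ht, le_rfl⟩

/-- Cardy's observable: the probability of a crossing between the interval `[b, 2b]` and the left
side of the interface. -/
noncomputable def obsC (W : ℝ → ℝ) (b t : ℝ) : ℝ :=
  cardyF ((gR W (2 * b) t - gR W b t) / (gR W (2 * b) t - W t))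

theorem cross_aux {b w t e1 e2 C1 A : ℝ} (hb : 1 ≤ b) (ht : 0 ≤ t) (hA0 : 0 ≤ A) (htA : t ≤ A)
    (hw : |w| ≤ A) (he1 : |e1| ≤ C1 / b ^ 2) (he2 : |e2| ≤ C1 / b ^ 2) (hC1 : 0 ≤ C1)
    (hC1A : C1 ≤ A) (hbA : 8 * A ≤ b) :
    |(((2 * b + t / b + e2) - (b + 2 * t / b + e1)) / ((2 * b + t / b + e2) - w) - 1 / 2) -
      (w / (4 * b) + (w ^ 2 - 6 * t) / (8 * b ^ 2))| ≤ (10 * A + 10 * A ^ 2 + 10 * A ^ 3) / b ^ 3 ∧
    |((2 * b + t / b + e2) - (b + 2 * t / b + e1)) / ((2 * b + t / b + e2) - w) - 1 / 2| ≤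
      6 * A / b := by
  have hb0 : 0 < b := by linarith
  obtain ⟨q, hq⟩ : ∃ q, q = b⁻¹ := ⟨_, rfl⟩
  have hq0 : 0 < q := by rw [hq]; positivity
  have hbq : b * q = 1 := by rw [hq]; exact mul_inv_cancel₀ hb0.ne'
  have hq1 : q ≤ 1 := by rw [hq]; exact inv_le_one_of_one_le₀ hb
  have hqA : 8 * A * q ≤ 1 := by
    have := mul_le_mul_of_nonneg_right hbA hq0.le
    rwa [hbq] at this
  have hq2 : q ^ 2 ≤ q := by
    calc q ^ 2 = q * q := sq q
      _ ≤ q * 1 := mul_le_mul_of_nonneg_left hq1 hq0.le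
      _ = q := mul_one q
  have h1 : |e1| ≤ A * q ^ 2 := by
    refine he1.trans ?_
    rw [hq, inv_pow, div_eq_mul_inv]
    gcongr
  have h2 : |e2| ≤ A * q ^ 2 := by
    refine he2.trans ?_
    rw [hq, inv_pow, div_eq_mul_inv]
    gcongr
  have hAq2 : A * q ^ 2 ≤ A * q := mul_le_mul_of_nonneg_left hq2 hA0
  -- denominator
  obtain ⟨D, hD⟩ : ∃ D, D = (2 * b + t / b + e2) - w := ⟨_, rfl⟩
  have htb : t / b = t * q := by rw [hq]; rfl
  have htq : 0 ≤ t * q := mul_nonneg ht hq0.le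
  have htq1 : t * q ≤ A * q := mul_le_mul_of_nonneg_right htA hq0.le
  have hAq : A * q ≤ A := by
    calc A * q ≤ A * 1 := mul_le_mul_of_nonneg_left hq1 hA0
      _ = A := mul_one A
  have hw' := abs_le.1 hw
  have h1' := abs_le.1 h1
  have h2' := abs_le.1 h2
  have hDlb : b ≤ D := by
    rw [hD, htb]
    have : A * q ^ 2 ≤ A := hAq2.trans hAq
    linarith
  have hD0 : 0 < D := by linarith
  rw [← hD]
  -- numerator of `u - 1/2`
  obtain ⟨N, hN⟩ : ∃ N, N = w - 3 * (t * q) + (e2 - 2 * e1) := ⟨_, rfl⟩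
  have e3 : ((2 * b + t / b + e2) - (b + 2 * t / b + e1)) / D - 1 / 2 = N / (2 * D) := by
    have h2t : 2 * t / b = 2 * (t * q) := by rw [hq]; ring
    rw [hN, htb, h2t]
    field_simp
    rw [hD, htb]
    ring
  rw [e3]
  have hNA : |N| ≤ 7 * A := by
    have : A * q ^ 2 ≤ A := hAq2.trans hAq
    rw [hN, abs_le]
    constructor <;> linarith
  constructor
  · -- second order
    have e4 : N / (2 * D) - (w / (4 * b) + (w ^ 2 - 6 * t) / (8 * b ^ 2)) =
        ((e2 - 2 * e1) * 4 * b ^ 2 - w * 2 * b * (t * q + e2) -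
          (w ^ 2 - 6 * t) * (t * q + e2 - w)) / (8 * b ^ 2 * D) := by
      have e5 : t * q = t / b := htb.symm
      rw [hN, e5]
      have hD' : D = 2 * b + t / b + e2 - w := hD
      have hDne : D ≠ 0 := hD0.ne'
      field_simp
      rw [hD']
      field_simp
      ring
    rw [e4, abs_div, abs_of_pos (by positivity : 0 < 8 * b ^ 2 * D)]
    have hden : 8 * b ^ 3 ≤ 8 * b ^ 2 * D := by
      calc 8 * b ^ 3 = 8 * b ^ 2 * b := by ring
        _ ≤ 8 * b ^ 2 * D := mul_le_mul_of_nonneg_left hDlb (by positivity)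
    have hbq2 : b ^ 2 * q ^ 2 = 1 := by rw [← mul_pow, hbq, one_pow]
    have n1 : |(e2 - 2 * e1) * 4 * b ^ 2| ≤ 12 * A := by
      rw [abs_mul, abs_mul, abs_of_pos (by norm_num : (0 : ℝ) < 4), abs_of_nonneg (sq_nonneg b)]
      have : |e2 - 2 * e1| ≤ 3 * (A * q ^ 2) := by
        rw [abs_le]; constructor <;> linarith
      calc |e2 - 2 * e1| * 4 * b ^ 2 ≤ 3 * (A * q ^ 2) * 4 * b ^ 2 := by gcongr
        _ = 12 * A * (b ^ 2 * q ^ 2) := by ring
        _ = 12 * A := by rw [hbq2, mul_one]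
    have n2 : |w * 2 * b * (t * q + e2)| ≤ 4 * A ^ 2 := by
      have : |t * q + e2| ≤ 2 * (A * q) := by
        rw [abs_le]; constructor <;> linarith
      rw [abs_mul, abs_mul, abs_mul, abs_two, abs_of_pos hb0]
      calc |w| * 2 * b * |t * q + e2| ≤ A * 2 * b * (2 * (A * q)) := by gcongr
        _ = 4 * A ^ 2 * (b * q) := by ring
        _ = 4 * A ^ 2 := by rw [hbq, mul_one]
    have hw2 : w ^ 2 ≤ A ^ 2 := by
      rw [← sq_abs w]; exact pow_le_pow_left₀ (abs_nonneg _) hw 2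
    have n3 : |(w ^ 2 - 6 * t) * (t * q + e2 - w)| ≤ 3 * A ^ 3 + 18 * A ^ 2 := by
      rw [abs_mul]
      have m1 : |w ^ 2 - 6 * t| ≤ A ^ 2 + 6 * A := by
        have := sq_nonneg w
        have := sq_nonneg A
        rw [abs_le]; constructor <;> linarith
      have m2 : |t * q + e2 - w| ≤ 3 * A := by
        have : A * q ^ 2 ≤ A := hAq2.trans hAq
        rw [abs_le]; constructor <;> linarith
      calc |w ^ 2 - 6 * t| * |t * q + e2 - w| ≤ (A ^ 2 + 6 * A) * (3 * A) := by gcongr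
        _ = 3 * A ^ 3 + 18 * A ^ 2 := by ring
    have hA3 : 0 ≤ A ^ 3 := by positivity
    have hA2 : 0 ≤ A ^ 2 := by positivity
    have hnum : |(e2 - 2 * e1) * 4 * b ^ 2 - w * 2 * b * (t * q + e2) -
          (w ^ 2 - 6 * t) * (t * q + e2 - w)| ≤ 8 * (10 * A + 10 * A ^ 2 + 10 * A ^ 3) := by
      have s1 := abs_sub ((e2 - 2 * e1) * 4 * b ^ 2 - w * 2 * b * (t * q + e2))
        ((w ^ 2 - 6 * t) * (t * q + e2 - w))
      have s2 := abs_sub ((e2 - 2 * e1) * 4 * b ^ 2) (w * 2 * b * (t * q + e2))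
      linarith
    calc _ ≤ 8 * (10 * A + 10 * A ^ 2 + 10 * A ^ 3) / (8 * b ^ 3) :=
          div_le_div₀ (by positivity) hnum (by positivity) hden
      _ = (10 * A + 10 * A ^ 2 + 10 * A ^ 3) / b ^ 3 := by
          field_simp
  · rw [abs_div, abs_of_pos (by positivity : 0 < 2 * D)]
    calc |N| / (2 * D) ≤ 7 * A / (2 * b) :=
          div_le_div₀ (by positivity) hNA (by positivity) (by linarith)
      _ ≤ 6 * A / b := by
          rw [div_le_div_iff₀ (by positivity) hb0]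
          nlinarith [mul_nonneg hA0 hb0.le]

/-- **Cardy's observable has the expansion with variance `6`.** -/
theorem expn_obsC : Expn obsC 6 (cardyF (1 / 2)) (cD / 4) (cD / 8) where
  h1 := (div_pos cD_pos (by norm_num)).ne'
  h2 := (div_pos cD_pos (by norm_num)).ne'
  exp := by
    intro T R hT hR
    obtain ⟨K, hK0, hK⟩ := cardyF_near
    obtain ⟨C1, hC1⟩ : ∃ C1, C1 = 4 * T * (4 * T + R) := ⟨_, rfl⟩
    have hC10 : 0 ≤ C1 := by rw [hC1]; positivity
    obtain ⟨A, hA⟩ : ∃ A, A = C1 + T + R + 1 := ⟨_, rfl⟩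
    have hA0 : 0 ≤ A := by rw [hA]; positivity
    have hA1 : 1 ≤ A := by rw [hA]; linarith
    have hD := cD_pos
    refine ⟨cD * (10 * A + 10 * A ^ 2 + 10 * A ^ 3) + K * (6 * A) ^ 3,
      24 * A + 16 * T + 4 * R, by positivity, by positivity, ?_⟩
    intro W b t ht htT hW hWR hb
    have hb1 : 1 ≤ b := by linarith
    have hb0 : 0 < b := by linarith
    have h4R : 4 * R ≤ |b| := by rw [abs_of_pos hb0]; linarith
    have h4R' : 4 * R ≤ |2 * b| := by rw [abs_of_pos (by positivity)]; linarith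
    have h16 : 16 * t ≤ b ^ 2 := by
      have : b * 1 ≤ b * b := mul_le_mul_of_nonneg_left hb1 hb0.le
      rw [sq]; linarith
    have h16' : 16 * t ≤ (2 * b) ^ 2 := by
      have : 0 ≤ b ^ 2 := sq_nonneg b
      calc 16 * t ≤ b ^ 2 := h16
        _ ≤ 4 * b ^ 2 := by linarith
        _ = (2 * b) ^ 2 := by ring
    have hb2 : (2 * b) ≠ 0 := by positivity
    obtain ⟨y, hy⟩ := exists_rsol ht hW hWR hb0.ne' h4R h16
    obtain ⟨y', hy'⟩ := exists_rsol ht hW hWR hb2 h4R' h16'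
    have s1 := RSol.second ht hR hW hWR hb0.ne' h4R h16 hy
    have s2 := RSol.second ht hR hW hWR hb2 h4R' h16' hy'
    rw [abs_of_pos hb0] at s1
    rw [abs_of_pos (show 0 < 2 * b by positivity)] at s2
    have he1 : |y t - b - 2 * t / b| ≤ C1 / b ^ 2 := by
      refine s1.trans ?_
      have h3 : 4 * t / b ≤ 4 * T := by
        rw [div_le_iff₀ hb0]
        have : T * 1 ≤ T * b := mul_le_mul_of_nonneg_left hb1 hT
        linarith
      have h30 : 0 ≤ 4 * t / b := by positivity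
      rw [hC1]
      gcongr
    have he2 : |y' t - 2 * b - t / b| ≤ C1 / b ^ 2 := by
      have e : y' t - 2 * b - t / b = y' t - 2 * b - 2 * t / (2 * b) := by
        field_simp
      rw [e]
      refine s2.trans ?_
      have h3 : 4 * t / (2 * b) ≤ 4 * T := by
        rw [div_le_iff₀ (by positivity)]
        have : T * 1 ≤ T * b := mul_le_mul_of_nonneg_left hb1 hT
        nlinarith
      have h30 : 0 ≤ 4 * t / (2 * b) := by positivity
      rw [hC1]
      have h5 : b ^ 2 ≤ (2 * b) ^ 2 := by nlinarith [sq_nonneg b]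
      gcongr
    have key := cross_aux (w := W t) (t := t) (e1 := y t - b - 2 * t / b)
      (e2 := y' t - 2 * b - t / b) (C1 := C1) (A := A) hb1 ht hA0 (by linarith)
      ((hWR t ⟨ht, le_rfl⟩).trans (by linarith)) he1 he2 hC10 (by linarith) (by linarith)
    have f1 : (2 * b + t / b + (y' t - 2 * b - t / b)) = y' t := by ring
    have f2 : (b + 2 * t / b + (y t - b - 2 * t / b)) = y t := by ring
    rw [f1, f2] at key
    obtain ⟨k1, k2⟩ := key
    rw [obsC, gR_eq ht hW hy, gR_eq ht hW hy']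
    obtain ⟨u, hu⟩ : ∃ u, u = (y' t - y t) / (y' t - W t) := ⟨_, rfl⟩
    rw [← hu] at k1 k2 ⊢
    have hu4 : |u - 1 / 2| ≤ 1 / 4 := by
      refine k2.trans ?_
      rw [div_le_iff₀ hb0]
      linarith
    have k3 := hK u hu4
    have e : cardyF u - (cardyF (1 / 2) + cD / 4 * W t / b + cD / 8 * (W t ^ 2 - 6 * t) / b ^ 2) =
        (cardyF u - cardyF (1 / 2) - cD * (u - 1 / 2)) +
        cD * ((u - 1 / 2) - (W t / (4 * b) + (W t ^ 2 - 6 * t) / (8 * b ^ 2))) := by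
      field_simp
      ring
    rw [e]
    refine (abs_add_le _ _).trans ?_
    rw [abs_mul, abs_of_pos hD]
    have k4 : K * |u - 1 / 2| ^ 3 ≤ K * (6 * A) ^ 3 / b ^ 3 := by
      have : |u - 1 / 2| ^ 3 ≤ (6 * A / b) ^ 3 := pow_le_pow_left₀ (abs_nonneg _) k2 3
      rw [div_pow] at this
      calc K * |u - 1 / 2| ^ 3 ≤ K * ((6 * A) ^ 3 / b ^ 3) := by gcongr
        _ = K * (6 * A) ^ 3 / b ^ 3 := by ring
    have k5 : cD * |u - 1 / 2 - (W t / (4 * b) + (W t ^ 2 - 6 * t) / (8 * b ^ 2))| ≤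
        cD * (10 * A + 10 * A ^ 2 + 10 * A ^ 3) / b ^ 3 := by
      calc _ ≤ cD * ((10 * A + 10 * A ^ 2 + 10 * A ^ 3) / b ^ 3) := by gcongr
        _ = _ := by ring
    rw [add_div]
    linarith

/-- **The three-point observable has the expansion with variance `6`.** -/
theorem expn_obsF : Expn obsF 6 1 (1 / 3) (2 / 9) where
  h1 := by norm_num
  h2 := by norm_num
  exp := by
    intro T R hT hR
    obtain ⟨C, b₀, hC, hb₀, h⟩ := obsF_expansion hT hR
    refine ⟨C, b₀, hC, hb₀, fun W b t ht htT hW hWR hb => ?_⟩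
    have hb0 : 0 < b := by linarith
    have h1 := (h W b t ht htT hW hWR (by rw [abs_of_pos hb0]; exact hb)).2
    rw [abs_of_pos hb0] at h1
    refine le_trans (le_of_eq ?_) h1
    unfold mainB
    congr 1
    field_simp
    ring

end Vale.Agent.P167.H411
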