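import Vale.Agent.P167.E2.Om
import Vale.Agent.P167.H411.Asym6
import Vale.Agent.P153.R2.R1.HalfP

/-!
# P167, block DRV6: the corner curves of the square lattice as a family of curves `DC`
-/

set_option autoImplicit false
set_option linter.unusedVariables false

open MeasureTheory ProbabilityTheory Filter Topology Set Metric
open scoped NNReal ENNReal

namespace Vale.Agent.P167.H411

open Vale.Agent.P153.R2 (Ex)
open Vale.Agent.P153.R2.DET (Uni)
open Vale.Agent.P153.R2.R1 (IsU)
open Vale.Agent.P167.E6 Vale.Agent.P167.E2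

variable {n : ℕ} {p : ZMod n → ℤ × ℤ} {S : Finset (ℤ × ℤ)} {k : ℕ}
  {A A' : Finset (Sym2 (ℤ × ℤ))}

/-- The corner curves: the outcomes are the sets of open edges, the state after `j` steps of the
curve is the medial edge `run (j - 1)`. -/
noncomputable def Qc (p : ZMod n → ℤ × ℤ) (k : ℕ) (δ : ℝ) (S : Finset (ℤ × ℤ)) :
    DC (Finset (Sym2 (ℤ × ℤ))) Medial where
  C := (((edges S).powerset : Finset _) : Set _)
  r := fun A j => run p k A (j - 1)
  K := fun A => nu p k A
  X := fun A t => pl p k δ A t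

theorem mem_Qc {δ : ℝ} : A ∈ (Qc p k δ S).C ↔ A ⊆ edges S := by
  change A ∈ (((edges S).powerset : Finset _) : Set _) ↔ _
  rw [Finset.mem_coe, Finset.mem_powerset]

section

variable (hp : IsPolygon p) (hS : Encloses p S) (hk : k < n)
include hp hS hk

theorem len_le_of (hA : A ⊆ edges S) (hA' : A' ⊆ edges S)
    (h : run p k A' (len p k A) = run p k A (len p k A)) : len p k A' ≤ len p k A := by
  refine len_min hp hS hk hA' (len_pos hp hS hk hA) ?_
  rw [h, run_len hp hS hk hA]

theorem len_agree (hA : A ⊆ edges S) (hA' : A' ⊆ edges S)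
    (h : ∀ i ≤ len p k A, run p k A' i = run p k A i) : len p k A' = len p k A := by
  have h1 := len_le_of hp hS hk hA hA' (h _ le_rfl)
  exact le_antisymm h1 (len_le_of hp hS hk hA' hA (h _ h1).symm)

theorem xv_agree (hA : A ⊆ edges S) (hA' : A' ⊆ edges S) {j : ℕ}
    (h : ∀ i ≤ j, run p k A' (i - 1) = run p k A (i - 1)) :
    ∀ i ≤ j, xv p k A' i = xv p k A i := by
  intro i hi
  rcases Nat.eq_zero_or_pos i with h0 | h0
  · rw [h0, xv_zero, xv_zero]
  · have key : i ≤ len p k A + 1 ↔ i ≤ len p k A' + 1 := by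
      constructor
      · intro h1
        by_contra h2
        have h3 := h (len p k A' + 1) (by omega)
        rw [Nat.add_sub_cancel] at h3
        have := len_le_of hp hS hk hA' hA h3.symm
        omega
      · intro h1
        by_contra h2
        have h3 := h (len p k A + 1) (by omega)
        rw [Nat.add_sub_cancel] at h3
        have := len_le_of hp hS hk hA hA' h3
        omega
    have h0' : ¬ i = 0 := by omega
    unfold xv
    by_cases h1 : i ≤ len p k A + 1
    · rw [if_neg h0', if_neg h0', if_pos h1, if_pos (key.1 h1), h i hi]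
    · rw [if_neg h0', if_neg h0', if_neg h1, if_neg fun h2 => h1 (key.2 h2)]

end

theorem lin_congr {x y : ℕ → ℂ} {j : ℕ} (h : ∀ i ≤ j, y i = x i) {t : ℝ} (ht : t ∈ Icc (0 : ℝ) j) :
    lin y t = lin x t := by
  rcases ht.2.lt_or_eq with h1 | h1
  · have h2 : ⌊t⌋₊ < j := (Nat.floor_lt ht.1).2 h1
    unfold lin
    rw [h _ h2.le, h _ h2]
  · rw [h1, lin_nat, lin_nat, h j le_rfl]

theorem pl_step (hp : IsPolygon p) (hS : Encloses p S) (hk : k < n) (hA : A ⊆ edges S) {δ : ℝ}
    (hδ : 0 ≤ δ) {j : ℕ} (hj : j < nu p k A) {t : ℝ} (ht : t ∈ Icc (j : ℝ) (j + 1)) :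
    dist (pl p k δ A t) (pl p k δ A j) ≤ δ := by
  unfold pl
  rw [lin_nat, lin_eq _ j (Or.inl ht.1) ht.2, dist_eq_norm, ← mul_sub, add_sub_cancel_left,
    norm_mul, norm_mul, Complex.norm_real, Complex.norm_real, Real.norm_eq_abs, Real.norm_eq_abs,
    abs_of_nonneg hδ, abs_of_nonneg (sub_nonneg.2 ht.1)]
  have h1 := xv_step hp hS hk hA j hj
  have h2 : (t - j) * ‖xv p k A (j + 1) - xv p k A j‖ ≤ 1 * (1 / 2) :=
    mul_le_mul (by linarith [ht.2]) h1 (norm_nonneg _) zero_le_one
  nlinarith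

/-- **The corner curves form a well-formed family.** -/
theorem Qc_wf (hp : IsPolygon p) (hS : Encloses p S) (hk : k + 1 < n) {δ : ℝ} (hδ : 0 < δ)
    {ψ : ℂ → ℂ} (hψ : IsU ψ (Om δ S) (aM p δ) (bM p k δ)) :
    (Qc p k δ S).WF ψ (bM p k δ) δ where
  fin := Finset.finite_toSet _
  ne := ⟨∅, mem_Qc.2 (Finset.empty_subset _)⟩
  pos := fun A _ => Nat.succ_pos _
  stopK := by
    intro A hA A' hA' h
    have h1 : len p k A' = len p k A := by
      refine len_agree hp hS (by omega) (mem_Qc.1 hA) (mem_Qc.1 hA') fun i hi => ?_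
      exact h (i + 1) (show i + 1 ≤ len p k A + 2 by omega)
    change len p k A' + 2 = len p k A + 2
    rw [h1]
  ad := by
    intro A hA A' hA' j _ h t ht
    change (δ : ℂ) * lin (xv p k A') t = (δ : ℂ) * lin (xv p k A) t
    rw [lin_congr (xv_agree hp hS (by omega) (mem_Qc.1 hA) (mem_Qc.1 hA') h) ht]
  cont := fun A _ => (continuous_pl δ).continuousOn
  inj := fun A hA => pl_injOn hp hS hk (mem_Qc.1 hA) hδ
  start := fun A _ => by
    rw [hψ.zero]
    exact pl_zero δ
  last := fun A _ => pl_nu δ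
  inter := by
    intro A hA t ht
    rw [hψ.img]
    exact pl_mem_Om hp hS (by omega) (mem_Qc.1 hA) hδ ht.1 ht.2
  step := fun A hA j hj t ht => pl_step hp hS (by omega) (mem_Qc.1 hA) hδ.le hj ht

end Vale.Agent.P167.H411
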