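import Vale.Agent.P153.R2.BESS.Flow
import Mathlib.Analysis.SpecialFunctions.Pow.Deriv
import Mathlib.MeasureTheory.Integral.IntervalIntegral.FundThmCalculus

/-!
# P167, block DRV6: the Loewner flow at a real point far from the driver

`obsF W b t` is the boundary observable `b^{1/3} (g_t'(b) / (g_t(b) - W_t))^{1/3}` of the chain driven
by `W`, and `obsF_expansion` its expansion at `b → ±∞`.
-/

set_option linter.unusedSectionVars false
set_option linter.unusedVariables false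

namespace Vale.Agent.P167.H411

open Set Filter Topology MeasureTheory Vale.Agent.P164 Vale.Agent.P153.BESS

/-- Solutions which start far from the driver exist. -/
theorem exists_csol {W : ℝ → ℝ} {t R : ℝ} {z : ℂ} (ht : 0 ≤ t) (hW : ContinuousOn W (Icc 0 t))
    (hR : ∀ s ∈ Icc 0 t, |W s| ≤ R) (hz : 0 < ‖z‖) (h1 : 4 * R ≤ ‖z‖) (h2 : 16 * t ≤ ‖z‖ ^ 2) :
    ∃ g, CSol W z t g := by
  have hc : 0 < ‖z‖ / 2 := by positivity
  obtain ⟨α, h0, hα⟩ := exists_reg ht hc hW z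
  refine ⟨α, CSol_of_reg hc h0 hα fun s hs => ?_⟩
  have h3 : ‖α s - z‖ ≤ 4 / ‖z‖ * s := by
    have h4 := norm_image_sub_le_of_norm_deriv_le_segment' (C := 4 / ‖z‖) hα
      (fun u _ => by
        refine (fld_norm_le hc _).trans (le_of_eq ?_)
        field_simp
        norm_num) s hs
    rwa [h0, sub_zero] at h4
  have h4 : 4 / ‖z‖ * s ≤ ‖z‖ / 4 := by
    rw [div_mul_eq_mul_div, div_le_div_iff₀ hz (by norm_num)]
    nlinarith [hs.2]
  have h5 := hR s hs
  have h6 : ‖z‖ ≤ ‖α s - (W s : ℂ)‖ + ‖(W s : ℂ)‖ + ‖α s - z‖ := by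
    have e : z = (α s - (W s : ℂ)) + (W s : ℂ) - (α s - z) := by ring
    calc ‖z‖ = ‖(α s - (W s : ℂ)) + (W s : ℂ) - (α s - z)‖ := by rw [← e]
      _ ≤ _ := (norm_sub_le _ _).trans (by gcongr; exact norm_add_le _ _)
  rw [Complex.norm_real, Real.norm_eq_abs] at h6
  linarith

/-- Solutions are unique. -/
theorem csol_unique {W : ℝ → ℝ} {t : ℝ} {z : ℂ} {g g' : ℝ → ℂ} (ht : 0 ≤ t)
    (hW : ContinuousOn W (Icc 0 t)) (h : CSol W z t g) (h' : CSol W z t g') :
    EqOn g g' (Icc 0 t) := by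
  obtain ⟨c, hc, h1⟩ := h.exists_gap ht hW
  obtain ⟨c', hc', h1'⟩ := h'.exists_gap ht hW
  have hm : 0 < min c c' := lt_min hc hc'
  exact (h.reg hm fun s hs => (min_le_left _ _).trans (h1 s hs)).eqOn hm
    (h'.reg hm fun s hs => (min_le_right _ _).trans (h1' s hs)) (by rw [h.1, h'.1])

/-- Real solutions far from the driver: existence and first bounds. -/
theorem exists_rsol {W : ℝ → ℝ} {t R b : ℝ} (ht : 0 ≤ t) (hW : ContinuousOn W (Icc 0 t))
    (hR : ∀ s ∈ Icc 0 t, |W s| ≤ R) (hb : b ≠ 0) (h1 : 4 * R ≤ |b|) (h2 : 16 * t ≤ b ^ 2) :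
    ∃ y, RSol W b t y := by
  have hbn : ‖(b : ℂ)‖ = |b| := by rw [Complex.norm_real, Real.norm_eq_abs]
  obtain ⟨g, hg⟩ := exists_csol (z := (b : ℂ)) ht hW hR (by rw [hbn]; exact abs_pos.2 hb)
    (by rw [hbn]; exact h1) (by rw [hbn, sq_abs]; exact h2)
  exact ⟨_, hg.rsol hW⟩

theorem rsol_unique {W : ℝ → ℝ} {t b : ℝ} {y y' : ℝ → ℝ} (ht : 0 ≤ t)
    (hW : ContinuousOn W (Icc 0 t)) (h : RSol W b t y) (h' : RSol W b t y') :
    EqOn y y' (Icc 0 t) := by
  intro s hs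
  have := csol_unique ht hW h.csol h'.csol hs
  exact Complex.ofReal_injective this

/-- Bounds for a real solution started at `b`, `|b|` large. -/
theorem RSol.bounds {W : ℝ → ℝ} {t R b : ℝ} {y : ℝ → ℝ} (ht : 0 ≤ t)
    (hW : ContinuousOn W (Icc 0 t)) (hR : ∀ s ∈ Icc 0 t, |W s| ≤ R) (hb : b ≠ 0)
    (h1 : 4 * R ≤ |b|) (h2 : 16 * t ≤ b ^ 2) (hy : RSol W b t y) :
    ∀ s ∈ Icc 0 t, |y s - b| ≤ 4 / |b| * s ∧ |y s - b| ≤ |b| / 4 ∧ |b| / 2 ≤ |y s - W s| ∧
      0 < (y s - W s) / b := by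
  have hb0 : 0 < |b| := abs_pos.2 hb
  have hc : 0 < |b| / 2 := by positivity
  obtain ⟨α, h0, hα⟩ := exists_reg ht hc hW (b : ℂ)
  have h3 : ∀ s ∈ Icc 0 t, ‖α s - b‖ ≤ 4 / |b| * s := by
    intro s hs
    have h4 := norm_image_sub_le_of_norm_deriv_le_segment' (C := 4 / |b|) hα
      (fun u _ => by
        refine (fld_norm_le hc _).trans (le_of_eq ?_)
        field_simp
        norm_num) s hs
    rwa [h0, sub_zero] at h4
  have h4 : ∀ s ∈ Icc 0 t, 4 / |b| * s ≤ |b| / 4 := by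
    intro s hs
    rw [div_mul_eq_mul_div, div_le_div_iff₀ hb0 (by norm_num)]
    nlinarith [hs.2, sq_abs b]
  have h5 : ∀ s ∈ Icc 0 t, |b| / 2 ≤ ‖α s - (W s : ℂ)‖ := by
    intro s hs
    have h6 : ‖(b : ℂ)‖ ≤ ‖α s - (W s : ℂ)‖ + ‖(W s : ℂ)‖ + ‖α s - b‖ := by
      have e : (b : ℂ) = (α s - (W s : ℂ)) + (W s : ℂ) - (α s - b) := by ring
      calc ‖(b : ℂ)‖ = ‖(α s - (W s : ℂ)) + (W s : ℂ) - (α s - b)‖ := by rw [← e]
        _ ≤ _ := (norm_sub_le _ _).trans (by gcongr; exact norm_add_le _ _)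
    rw [Complex.norm_real, Real.norm_eq_abs, Complex.norm_real, Real.norm_eq_abs] at h6
    have := hR s hs
    have := h3 s hs
    have := h4 s hs
    linarith
  have hcs : CSol W b t α := CSol_of_reg hc h0 hα h5
  have he := csol_unique ht hW hcs hy.csol
  intro s hs
  have e1 : α s = (y s : ℂ) := he hs
  have h6 : |y s - b| ≤ 4 / |b| * s := by
    have := h3 s hs
    rw [e1, ← Complex.ofReal_sub, Complex.norm_real, Real.norm_eq_abs] at this
    exact this
  have h7 : |b| / 2 ≤ |y s - W s| := by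
    have := h5 s hs
    rw [e1, ← Complex.ofReal_sub, Complex.norm_real, Real.norm_eq_abs] at this
    exact this
  have h8 := h4 s hs
  refine ⟨h6, h6.trans h8, h7, ?_⟩
  have h9 := hR s hs
  have h10 : |y s - W s - b| ≤ |b| / 2 := by
    have e : y s - W s - b = (y s - b) - W s := by ring
    rw [e]
    refine (abs_sub _ _).trans ?_
    linarith
  have h11 : |(y s - W s) / b - 1| ≤ 1 / 2 := by
    have e : (y s - W s) / b - 1 = (y s - W s - b) / b := by field_simp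
    rw [e, abs_div, div_le_iff₀ hb0]
    linarith
  have := (abs_le.1 h11).1
  linarith

/-- `z + 2 t / z` is the flow up to second order. -/
theorem RSol.second {W : ℝ → ℝ} {t R b : ℝ} {y : ℝ → ℝ} (ht : 0 ≤ t) (hR0 : 0 ≤ R)
    (hW : ContinuousOn W (Icc 0 t)) (hR : ∀ s ∈ Icc 0 t, |W s| ≤ R) (hb : b ≠ 0)
    (h1 : 4 * R ≤ |b|) (h2 : 16 * t ≤ b ^ 2) (hy : RSol W b t y) :
    |y t - b - 2 * t / b| ≤ 4 * t * (4 * t / |b| + R) / |b| ^ 2 := by
  have hb0 : 0 < |b| := abs_pos.2 hb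
  have hbd := RSol.bounds ht hW hR hb h1 h2 hy
  have hf : ∀ s ∈ Icc 0 t, HasDerivWithinAt (fun s : ℝ => y s - 2 * s / b)
      (2 / (y s - W s) - 2 / b) (Icc 0 t) s := by
    intro s hs
    have h3 : HasDerivAt (fun s : ℝ => 2 * s / b) (2 * 1 / b) s :=
      ((hasDerivAt_id s).const_mul 2).div_const b
    rw [mul_one] at h3
    exact (hy.2 s hs).2.sub h3.hasDerivWithinAt
  have hbd2 : ∀ s ∈ Ico 0 t, ‖2 / (y s - W s) - 2 / b‖ ≤ 4 * (4 * t / |b| + R) / |b| ^ 2 := by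
    intro s hs
    have hs' : s ∈ Icc 0 t := ⟨hs.1, hs.2.le⟩
    obtain ⟨h3, -, h4, -⟩ := hbd s hs'
    have h5 : y s - W s ≠ 0 := by
      intro h
      rw [h, abs_zero] at h4
      linarith
    have e1 : 2 / (y s - W s) - 2 / b = 2 * (W s - (y s - b)) / ((y s - W s) * b) := by
      field_simp
      ring
    rw [e1, Real.norm_eq_abs, abs_div, abs_mul, abs_mul, abs_two]
    have h6 : |W s - (y s - b)| ≤ 4 * t / |b| + R := by
      refine (abs_sub _ _).trans ?_
      have h7 := hR s hs'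
      have h8 : 4 / |b| * s ≤ 4 * t / |b| := by
        rw [div_mul_eq_mul_div]
        apply div_le_div_of_nonneg_right _ hb0.le
        linarith [hs.2]
      linarith
    have h7 : |b| ^ 2 / 2 ≤ |y s - W s| * |b| := by nlinarith
    have h8 : 0 ≤ 4 * t / |b| + R := by positivity
    calc 2 * |W s - (y s - b)| / (|y s - W s| * |b|)
        ≤ 2 * (4 * t / |b| + R) / (|b| ^ 2 / 2) :=
          div_le_div₀ (by positivity) (by linarith) (by positivity) h7
      _ = 4 * (4 * t / |b| + R) / |b| ^ 2 := by field_simp; ring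
  have key := norm_image_sub_le_of_norm_deriv_le_segment' hf hbd2 t ⟨ht, le_rfl⟩
  simp only [sub_zero, mul_zero, zero_div] at key
  rw [hy.1, Real.norm_eq_abs] at key
  have e2 : y t - b - 2 * t / b = y t - 2 * t / b - b := by ring
  rw [e2]
  refine key.trans (le_of_eq ?_)
  ring

/-- The logarithm of the derivative of the flow at a real point. -/
noncomputable def ldv (W y : ℝ → ℝ) (t : ℝ) : ℝ := -∫ s in (0 : ℝ)..t, 2 / (y s - W s) ^ 2

theorem RSol.ldv_bound {W : ℝ → ℝ} {t R b : ℝ} {y : ℝ → ℝ} (ht : 0 ≤ t) (hR0 : 0 ≤ R)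
    (hW : ContinuousOn W (Icc 0 t)) (hR : ∀ s ∈ Icc 0 t, |W s| ≤ R) (hb : b ≠ 0)
    (h1 : 4 * R ≤ |b|) (h2 : 16 * t ≤ b ^ 2) (hy : RSol W b t y) :
    |ldv W y t + 2 * t / b ^ 2| ≤ 20 * (4 * t / |b| + R) * t / |b| ^ 3 := by
  have hb0 : 0 < |b| := abs_pos.2 hb
  have hbd := RSol.bounds ht hW hR hb h1 h2 hy
  have hcont : ContinuousOn (fun s => 2 / (y s - W s) ^ 2) (Icc 0 t) := by
    refine continuousOn_const.div ((hy.cont.sub hW).pow 2) fun s hs => ?_
    exact pow_ne_zero 2 (sub_ne_zero.2 (hy.2 s hs).1)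
  have hint : IntervalIntegrable (fun s => 2 / (y s - W s) ^ 2) volume 0 t :=
    (hcont.mono (by rw [uIcc_of_le ht])).intervalIntegrable
  have e1 : ldv W y t + 2 * t / b ^ 2 = -∫ s in (0 : ℝ)..t, (2 / (y s - W s) ^ 2 - 2 / b ^ 2) := by
    rw [intervalIntegral.integral_sub hint intervalIntegrable_const,
      intervalIntegral.integral_const, ldv]
    simp only [sub_zero, smul_eq_mul]
    ring
  rw [e1, abs_neg]
  have hbd2 : ∀ s ∈ uIoc 0 t, ‖2 / (y s - W s) ^ 2 - 2 / b ^ 2‖ ≤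
      20 * (4 * t / |b| + R) / |b| ^ 3 := by
    intro s hs
    rw [uIoc_of_le ht] at hs
    have hs' : s ∈ Icc 0 t := ⟨hs.1.le, hs.2⟩
    obtain ⟨h3, h3', h4, -⟩ := hbd s hs'
    have h5 : y s - W s ≠ 0 := by
      intro h
      rw [h, abs_zero] at h4
      linarith
    have e2 : 2 / (y s - W s) ^ 2 - 2 / b ^ 2 =
        2 * (W s - (y s - b)) * (b + (y s - W s)) / ((y s - W s) ^ 2 * b ^ 2) := by
      field_simp
      ring
    rw [e2, Real.norm_eq_abs, abs_div, abs_mul, abs_mul, abs_mul, abs_two, abs_pow, abs_pow]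
    have h6 : |W s - (y s - b)| ≤ 4 * t / |b| + R := by
      refine (abs_sub _ _).trans ?_
      have h7 := hR s hs'
      have h8 : 4 / |b| * s ≤ 4 * t / |b| := by
        rw [div_mul_eq_mul_div]
        apply div_le_div_of_nonneg_right _ hb0.le
        linarith [hs.2]
      linarith
    have h7 : |b + (y s - W s)| ≤ 5 / 2 * |b| := by
      have e : b + (y s - W s) = 2 * b + (y s - b) - W s := by ring
      rw [e]
      refine (abs_sub _ _).trans ?_
      have h8 := abs_add_le (2 * b) (y s - b)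
      rw [abs_mul, abs_two] at h8
      have h9 := hR s hs'
      linarith
    have h8 : 0 ≤ 4 * t / |b| + R := by positivity
    have h9 : (|b| / 2) ^ 2 * |b| ^ 2 ≤ |y s - W s| ^ 2 * |b| ^ 2 := by
      gcongr
    calc 2 * |W s - (y s - b)| * |b + (y s - W s)| / (|y s - W s| ^ 2 * |b| ^ 2)
        ≤ 2 * (4 * t / |b| + R) * (5 / 2 * |b|) / ((|b| / 2) ^ 2 * |b| ^ 2) := by
          apply div_le_div₀ (by positivity) _ (by positivity) h9
          gcongr
      _ = 20 * (4 * t / |b| + R) / |b| ^ 3 := by field_simp; ring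
  have := intervalIntegral.norm_integral_le_of_norm_le_const hbd2
  rw [sub_zero, abs_of_nonneg ht, Real.norm_eq_abs] at this
  refine this.trans (le_of_eq ?_)
  ring

end Vale.Agent.P167.H411
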