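import Vale.Agent.P153.R2.M1.Main

/-!
# P167, block DRV6: approximate martingale problems with a general variance `κ`

`M1` of P153 treats the approximate martingale problem `W`, `W² - 4 t`.  The driver multiplied by
`2 / √κ` solves it iff `W`, `W² - κ t` are approximate martingales.
-/

set_option linter.unusedSectionVars false
set_option linter.unusedVariables false

namespace Vale.Agent.P167.H411

open MeasureTheory ProbabilityTheory Filter Topology Set Complex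
open Vale.Agent.P153.M1
open scoped NNReal ENNReal

/-- The driver of `SLE_κ`: `W = √κ B` on `[0,∞)`, almost surely. -/
def IsDriver (κ : ℝ) {Ω : Type*} [MeasurableSpace Ω] (P : Measure Ω) (W : Ω → ℝ → ℝ) : Prop :=
  ∃ B : ℝ≥0 → Ω → ℝ, IsBrownianReal B P ∧ ∀ᵐ ω ∂P, ∀ t : ℝ, 0 ≤ t → W ω t = √κ * B t.toNNReal ω

section

variable {Ω : ℕ → Type*} [mΩ : ∀ n, MeasurableSpace (Ω n)] (S : Sys Ω)

/-- The system with the driver multiplied by `c`. -/
def scl (c : ℝ) (S : Sys Ω) : Sys Ω where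
  F := S.F
  W := fun n ω t => c * S.W n ω t
  τ := S.τ

/-- The approximate martingale problem with variance `v`. -/
structure AMk (v : ℝ) (P : ∀ n, Measure (Ω n)) : Prop where
  m1 : ∀ (T R : ℝ) (κ κ' : ∀ n, Ω n → ℕ) (Y : ∀ n, Ω n → ℝ), (∀ n, IsStop (S.F n) (κ n)) →
    S.St T R κ' → (∀ n ω, κ n ω ≤ κ' n ω) → (∀ n, Past (S.F n) (κ n) (Y n)) →
    (∀ n ω, |Y n ω| ≤ 1) →
    Tendsto (fun n => ∫ ω, (S.Va κ' n ω - S.Va κ n ω) * Y n ω ∂(P n)) atTop (𝓝 0)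
  m2 : ∀ (T R : ℝ) (κ κ' : ∀ n, Ω n → ℕ) (Y : ∀ n, Ω n → ℝ), (∀ n, IsStop (S.F n) (κ n)) →
    S.St T R κ' → (∀ n ω, κ n ω ≤ κ' n ω) → (∀ n, Past (S.F n) (κ n) (Y n)) →
    (∀ n ω, |Y n ω| ≤ 1) →
    Tendsto (fun n => ∫ ω, ((S.Va κ' n ω ^ 2 - v * S.Ta κ' n ω) -
      (S.Va κ n ω ^ 2 - v * S.Ta κ n ω)) * Y n ω ∂(P n)) atTop (𝓝 0)

variable {S} {c : ℝ}

theorem scl_V (n k : ℕ) (ω : Ω n) : (scl c S).V n k ω = c * S.V n k ω := rfl

theorem scl_Va (κ : ∀ n, Ω n → ℕ) (n : ℕ) (ω : Ω n) : (scl c S).Va κ n ω = c * S.Va κ n ω := rfl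

theorem scl_Ta (κ : ∀ n, Ω n → ℕ) (n : ℕ) (ω : Ω n) : (scl c S).Ta κ n ω = S.Ta κ n ω := rfl

theorem scl_Bef (hc : 0 < c) {T R : ℝ} {n : ℕ} {ω : Ω n} {k : ℕ} :
    (scl c S).Bef T R n ω k ↔ S.Bef T (R / c) n ω k := by
  constructor
  · intro h j hj
    obtain ⟨h1, h2⟩ := h j hj
    refine ⟨h1, ?_⟩
    rw [scl_V, abs_mul, abs_of_pos hc] at h2
    rwa [le_div_iff₀ hc, mul_comm]
  · intro h j hj
    obtain ⟨h1, h2⟩ := h j hj
    refine ⟨h1, ?_⟩
    rw [scl_V, abs_mul, abs_of_pos hc]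
    rwa [le_div_iff₀ hc, mul_comm] at h2

theorem scl_St (hc : 0 < c) {T R : ℝ} {κ : ∀ n, Ω n → ℕ} (h : (scl c S).St T R κ) :
    S.St T (R / c) κ := ⟨h.stop, fun n ω => (scl_Bef hc).1 (h.bef n ω)⟩

theorem scl_ok (hc : 0 < c) (hS : S.Ok) : (scl c S).Ok where
  adV := fun n k => (hS.adV n k).const_mul c
  adτ := hS.adτ
  measW := fun n u => (hS.measW n u).const_mul c
  zero := hS.zero
  W0 := fun n ω => by
    change c * S.W n ω 0 = 0
    rw [hS.W0 n ω, mul_zero]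
  mono := hS.mono
  unb := hS.unb
  small := by
    intro T R
    obtain ⟨e, he, h⟩ := hS.small T (R / c)
    refine ⟨fun n => max (e n) (c * e n), ?_, fun n ω k hk => ?_⟩
    · have h1 := he.max (he.const_mul c)
      rwa [mul_zero, max_self] at h1
    · obtain ⟨h1, h2⟩ := h n ω k ((scl_Bef hc).1 hk)
      refine ⟨h1.trans (le_max_left _ _), fun u hu => ?_⟩
      change |c * S.W n ω u - c * S.W n ω (S.τ n k ω)| ≤ _
      rw [← mul_sub, abs_mul, abs_of_pos hc]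
      exact (mul_le_mul_of_nonneg_left (h2 u hu) hc.le).trans (le_max_right _ _)

theorem scl_cont {c : ℝ} (hc : ∀ n ω, ContinuousOn (S.W n ω) (Ici 0)) :
    ∀ n ω, ContinuousOn ((scl c S).W n ω) (Ici 0) := fun n ω => (hc n ω).const_smul c

variable {P : ∀ n, Measure (Ω n)}

theorem scl_am {v : ℝ} (hv : 0 < v) (hM : AMk S v P) : (scl (2 / √v) S).AM P := by
  have hs : 0 < √v := Real.sqrt_pos.2 hv
  have hc : 0 < 2 / √v := by positivity
  constructor
  · intro T R κ κ' Y hκ hκ' hle hY hY1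
    have h := (hM.m1 T _ κ κ' Y hκ (scl_St hc hκ') hle hY hY1).const_mul (2 / √v)
    rw [mul_zero] at h
    refine h.congr fun n => ?_
    rw [← integral_const_mul]
    congr 1
    funext ω
    rw [scl_Va, scl_Va]
    ring
  · intro T R κ κ' Y hκ hκ' hle hY hY1
    have h := (hM.m2 T _ κ κ' Y hκ (scl_St hc hκ') hle hY hY1).const_mul (4 / v)
    rw [mul_zero] at h
    refine h.congr fun n => ?_
    rw [← integral_const_mul]
    congr 1
    funext ω
    rw [scl_Va, scl_Va, scl_Ta, scl_Ta, mul_pow, mul_pow, div_pow, Real.sq_sqrt hv.le]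
    field_simp
    ring

end

section Law

variable [MeasurableSpace C(ℝ≥0, ℝ)] [BorelSpace C(ℝ≥0, ℝ)]
  {Ω : ℕ → Type*} [mΩ : ∀ n, MeasurableSpace (Ω n)] {S : Sys Ω}
  {P : ∀ n, Measure (Ω n)} [∀ n, IsProbabilityMeasure (P n)] {v : ℝ}

/-- multiplication by a constant on the path space -/
def mulC (c : ℝ) (f : C(ℝ≥0, ℝ)) : C(ℝ≥0, ℝ) where
  toFun t := c * f t
  continuous_toFun := continuous_const.mul f.continuous

omit [MeasurableSpace C(ℝ≥0, ℝ)] [BorelSpace C(ℝ≥0, ℝ)] in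
@[simp] theorem mulC_apply (c : ℝ) (f : C(ℝ≥0, ℝ)) (t : ℝ≥0) : mulC c f t = c * f t := rfl

omit [MeasurableSpace C(ℝ≥0, ℝ)] [BorelSpace C(ℝ≥0, ℝ)] in
theorem mulC_eq (c : ℝ) (f : C(ℝ≥0, ℝ)) : mulC c f = c • f := by
  ext t
  simp

omit [MeasurableSpace C(ℝ≥0, ℝ)] [BorelSpace C(ℝ≥0, ℝ)] in
theorem continuous_mulC (c : ℝ) : Continuous (mulC c) := by
  have : mulC c = fun f => c • f := funext (mulC_eq c)
  rw [this]
  exact continuous_const_smul c

omit [MeasurableSpace C(ℝ≥0, ℝ)] [BorelSpace C(ℝ≥0, ℝ)] in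
theorem mulC_inv {c : ℝ} (hc : c ≠ 0) (f : C(ℝ≥0, ℝ)) : mulC c⁻¹ (mulC c f) = f := by
  ext t
  simp [hc]

omit [MeasurableSpace C(ℝ≥0, ℝ)] [BorelSpace C(ℝ≥0, ℝ)] in
theorem path_scl (hc : ∀ n ω, ContinuousOn (S.W n ω) (Ici 0)) (c : ℝ) (n : ℕ) (ω : Ω n) :
    (scl c S).path (scl_cont hc) n ω = mulC c (S.path hc n ω) := rfl

/-- **The laws of the drivers are tight.** -/
theorem path_tight_k (hc : ∀ n ω, ContinuousOn (S.W n ω) (Ici 0)) (hv : 0 < v) (hS : S.Ok)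
    (hM : AMk S v P) : IsTightMeasureSet (range fun n => (P n).map (S.path hc n)) := by
  have hs : 0 < √v := Real.sqrt_pos.2 hv
  set c : ℝ := 2 / √v with hcdef
  have hc0 : 0 < c := by positivity
  have h1 := Sys.path_tight (S := scl c S) (P := P) (scl_cont hc) (scl_ok hc0 hS) (scl_am hv hM)
  rw [isTightMeasureSet_iff_exists_isCompact_measure_compl_le] at h1 ⊢
  intro ε hε
  obtain ⟨K, hK, h2⟩ := h1 ε hε
  refine ⟨mulC c⁻¹ '' K, hK.image (continuous_mulC _), ?_⟩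
  rintro _ ⟨n, rfl⟩
  have hm : Measurable (S.path hc n) := Sys.path_meas hc hS n
  have hm' : Measurable ((scl c S).path (scl_cont hc) n) :=
    Sys.path_meas (scl_cont hc) (scl_ok hc0 hS) n
  have h3 := h2 _ ⟨n, rfl⟩
  have hK1 : IsClosed (mulC c⁻¹ '' K) := (hK.image (continuous_mulC _)).isClosed
  change (P n).map (S.path hc n) _ ≤ ε
  rw [Measure.map_apply hm hK1.measurableSet.compl]
  change (P n).map ((scl c S).path (scl_cont hc) n) _ ≤ ε at h3
  rw [Measure.map_apply hm' hK.isClosed.measurableSet.compl] at h3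
  refine (measure_mono ?_).trans h3
  intro ω hω hω'
  apply hω
  refine ⟨(scl c S).path (scl_cont hc) n ω, hω', ?_⟩
  rw [path_scl hc c, mulC_inv hc0.ne']

omit [BorelSpace C(ℝ≥0, ℝ)] in
theorem lim_scl {θ : ℕ → ℕ} {E : Type*} [MeasurableSpace E] {μ : Measure E}
    {Z : E → C(ℝ≥0, ℝ)} (hc : ∀ n ω, ContinuousOn (S.W n ω) (Ici 0)) (c : ℝ)
    (h : Sys.Lim P hc θ μ Z) : Sys.Lim P (scl_cont (c := c) hc) θ μ (fun x => mulC c (Z x)) := by
  intro f hf hC
  obtain ⟨C, hC⟩ := hC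
  exact h (fun x => f (mulC c x)) (hf.comp (continuous_mulC c)) ⟨C, fun x => hC _⟩

/-- **Every weak limit of the drivers is `√v B`.** -/
theorem lim_brownian_k {θ : ℕ → ℕ} {E : Type*} [MeasurableSpace E] {μ : Measure E}
    [IsProbabilityMeasure μ] {Z : E → C(ℝ≥0, ℝ)} (hc : ∀ n ω, ContinuousOn (S.W n ω) (Ici 0))
    (hv : 0 < v) (h : Sys.Lim P hc θ μ Z) (hS : S.Ok) (hM : AMk S v P)
    (hθ : Tendsto θ atTop atTop) (hZ : Measurable Z) :
    IsBrownianReal (fun t x => Z x t / √v) μ := by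
  have hs : 0 < √v := Real.sqrt_pos.2 hv
  have hc0 : 0 < 2 / √v := by positivity
  have h1 := Sys.Lim.brownian (scl_cont hc) (lim_scl hc (2 / √v) h) (scl_ok hc0 hS)
    (scl_am hv hM) hθ ((continuous_mulC _).measurable.comp hZ)
  have e : (fun (t : ℝ≥0) (x : E) => mulC (2 / √v) (Z x) t / 2) = fun t x => Z x t / √v := by
    funext t x
    rw [mulC_apply]
    field_simp
  rwa [e] at h1

omit [MeasurableSpace C(ℝ≥0, ℝ)] [BorelSpace C(ℝ≥0, ℝ)] in
theorem driver_of_brownian {E : Type*} [MeasurableSpace E] {μ : Measure E} {Z : E → C(ℝ≥0, ℝ)}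
    (hv : 0 < v) (hB : IsBrownianReal (fun t x => Z x t / √v) μ) :
    IsDriver v μ (fun x t => Z x t.toNNReal) := by
  have hs : 0 < √v := Real.sqrt_pos.2 hv
  refine ⟨fun t x => Z x t / √v, hB, ae_of_all _ fun x t _ => ?_⟩
  field_simp

/-- **The drivers converge in law to `√v B`.** -/
theorem weak_limit_k (hc : ∀ n ω, ContinuousOn (S.W n ω) (Ici 0)) (hv : 0 < v) (hS : S.Ok)
    (hM : AMk S v P) :
    ∃ (ν : Measure C(ℝ≥0, ℝ)) (_ : IsProbabilityMeasure ν),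
      IsBrownianReal (fun t (f : C(ℝ≥0, ℝ)) => f t / √v) ν ∧ Sys.Lim P hc id ν id := by
  have hs : 0 < √v := Real.sqrt_pos.2 hv
  have hc0 : 0 < 2 / √v := by positivity
  obtain ⟨ν, hν, hB, hlim⟩ := Sys.weak_limit (S := scl (2 / √v) S) (P := P) (scl_cont hc)
    (scl_ok hc0 hS) (scl_am hv hM)
  have hm : Measurable (mulC (2 / √v)⁻¹) := (continuous_mulC _).measurable
  have hlim2 : Sys.Lim P hc id (ν.map (mulC (2 / √v)⁻¹)) id := by
    intro f hf hC
    obtain ⟨C, hC⟩ := hC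
    have h1 := hlim (fun x => f (mulC (2 / √v)⁻¹ x)) (hf.comp (continuous_mulC _))
      ⟨C, fun x => hC _⟩
    have e : ∫ x, f (id x) ∂(ν.map (mulC (2 / √v)⁻¹)) = ∫ x, f (mulC (2 / √v)⁻¹ x) ∂ν :=
      integral_map hm.aemeasurable hf.aestronglyMeasurable
    rw [e]
    refine h1.congr fun n => ?_
    refine integral_congr_ae (Eventually.of_forall fun ω => ?_)
    change f (mulC (2 / √v)⁻¹ ((scl (2 / √v) S).path (scl_cont hc) n ω)) = _
    rw [path_scl hc, mulC_inv hc0.ne']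
    rfl
  have hp : IsProbabilityMeasure (ν.map (mulC (2 / √v)⁻¹)) :=
    Measure.isProbabilityMeasure_map hm.aemeasurable
  exact ⟨ν.map (mulC (2 / √v)⁻¹), hp, lim_brownian_k hc hv hlim2 hS hM tendsto_id measurable_id,
    hlim2⟩

/-- **Joint limits**: the driver of every joint subsequential limit is `√v B`. -/
theorem joint_k (hc : ∀ n ω, ContinuousOn (S.W n ω) (Ici 0)) (hv : 0 < v) (hS : S.Ok)
    (hM : AMk S v P) {G : Type*} [TopologicalSpace G] [MeasurableSpace G]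
    (ν : Measure (G × C(ℝ≥0, ℝ))) [IsProbabilityMeasure ν] (X : ∀ n, Ω n → G) (θ : ℕ → ℕ)
    (hθ : Tendsto θ atTop atTop)
    (h : ∀ f : G × C(ℝ≥0, ℝ) → ℝ, Continuous f → (∃ C, ∀ x, |f x| ≤ C) →
      Tendsto (fun n => ∫ ω, f (X (θ n) ω, S.path hc (θ n) ω) ∂(P (θ n))) atTop
        (𝓝 (∫ x, f x ∂ν))) :
    IsDriver v ν (fun x t => x.2 t.toNNReal) :=
  driver_of_brownian (Z := Prod.snd) hv
    (lim_brownian_k hc hv (Sys.Lim.of_joint hc h) hS hM hθ measurable_snd)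

end Law

end Vale.Agent.P167.H411
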